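import Vale.Agent.P095.Compare.Specs
import Vale.Agent.P101.Colours
import Vale.Agent.P101.Piece
import Vale.Agent.P101.Orth.Pair
import Vale.Agent.P101.Core.Frontend
import Vale.Agent.P101.Cuntz.Lemmas
import Vale.Agent.P095.Outer.Central

/-!
# P095: absorbing a bounded ratio of copies in the central sequence algebra

Colours of matrix units turn many columns into slices, orthogonal full elements separate the
colours, and a fixed non-zero positive element absorbs a fixed multiple of every slice.
-/

noncomputable section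

namespace Vale.Agent.P095.Compare

open Filter Topology BoundedContinuousFunction Finset
open Vale.Agent.P101 Vale.Agent.P101.Cuntz Vale.Agent.P095 Vale.Agent.P095.Full

universe u

section Algebra

variable {B : Type u} [CStarAlgebra B]

omit [CStarAlgebra B] in
theorem sum_filter_div {C : Type*} [AddCommMonoid C] {M P : ℕ} (f : Fin M → C) :
    ∑ a, f a = ∑ s : Fin (M / P + 1), ∑ a ∈ univ.filter fun a : Fin M => (a : ℕ) / P = s, f a := by
  rw [← sum_fiberwise univ
    (fun a : Fin M => (⟨(a : ℕ) / P, Nat.lt_succ_of_le (Nat.div_le_div_right a.2.le)⟩ :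
      Fin (M / P + 1))) f]
  refine sum_congr rfl fun s _ => sum_congr (filter_congr fun a _ => ?_) fun _ _ => rfl
  exact ⟨fun h => congrArg Fin.val h, fun h => Fin.ext h⟩

/-- The column of a slice. -/
def slice {M P q : ℕ} (hP : 0 < P) (Z : Fin q → Fin P → B) (v : Fin M → B)
    (x : Fin (M / P + 1) × Fin q) : B :=
  ∑ a ∈ univ.filter fun a : Fin M => (a : ℕ) / P = x.1, Z x.2 ⟨(a : ℕ) % P, Nat.mod_lt _ hP⟩ * v a

/-- Columns numbered by `Fin M` are cut into slices of `P` columns. -/
theorem sum_slice {M P q : ℕ} (hP : 0 < P) (Z : Fin q → Fin P → B) {H : B}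
    (hZ : ∀ c c', ∑ i, star (Z i c) * Z i c' = if c = c' then H else 0) (v : Fin M → B) :
    ∑ x, star (slice hP Z v x) * slice hP Z v x = ∑ a, star (v a) * H * v a := by
  rw [Fintype.sum_prod_type, sum_filter_div (fun a => star (v a) * H * v a)]
  refine sum_congr rfl fun s _ => ?_
  simp only [slice, star_sum, sum_mul, mul_sum]
  rw [sum_comm]
  refine sum_congr rfl fun a ha => ?_
  rw [sum_comm]
  have key : ∀ a' : Fin M, ∑ i, star (Z i ⟨(a' : ℕ) % P, Nat.mod_lt _ hP⟩ * v a') *
      (Z i ⟨(a : ℕ) % P, Nat.mod_lt _ hP⟩ * v a) = star (v a') *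
        (if (⟨(a' : ℕ) % P, Nat.mod_lt _ hP⟩ : Fin P) = ⟨(a : ℕ) % P, Nat.mod_lt _ hP⟩ then H
          else 0) * v a := fun a' => by
    rw [← hZ, mul_sum, sum_mul]
    exact sum_congr rfl fun i _ => by simp only [star_mul, mul_assoc]
  simp only [key]
  rw [sum_eq_single a]
  · rw [if_pos rfl]
  · intro a' ha' hne
    rw [if_neg, mul_zero, zero_mul]
    intro h
    apply hne
    have h1 := (mem_filter.1 ha).2
    have h2 := (mem_filter.1 ha').2
    have h3 := congrArg Fin.val h
    refine Fin.ext ?_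
    calc (a' : ℕ) = (a' : ℕ) % P + P * ((a' : ℕ) / P) := (Nat.mod_add_div _ _).symm
      _ = (a : ℕ) % P + P * ((a : ℕ) / P) := by rw [h1, h2]; simp only at h3; rw [h3]
      _ = a := Nat.mod_add_div _ _
  · exact fun h => absurd ha h

/-- Inserting a sum of conjugates of `b * b`. -/
theorem sum_insert_unit {K k : ℕ} {b s : B} (hb : IsSelfAdjoint b) (hs : IsSelfAdjoint s)
    (d : Fin K → B) (c : Fin k → B)
    (hc : ∑ l, star (c l) * (s * s) * c l = 1) (hsb : Commute s b)
    (hcb : ∀ l, Commute (star (c l)) b) (W : B) :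
    ∑ x : Fin K × Fin k, star (b * (s * (c x.2 * (d x.1 * W)))) *
      (b * (s * (c x.2 * (d x.1 * W)))) =
        star W * (∑ i, star (d i) * (b * b) * d i) * W := by
  have key : ∀ i l, star (b * (s * (c l * (d i * W)))) * (b * (s * (c l * (d i * W)))) =
      star W * star (d i) * (b * b) * (star (c l) * (s * s) * c l) * d i * W := by
    intro i l
    have e1 : s * b * (b * s) = b * b * (s * s) := by
      calc s * b * (b * s) = (s * (b * b)) * s := by noncomm_ring
        _ = (b * b * s) * s := by rw [(hsb.mul_right hsb).eq]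
        _ = b * b * (s * s) := by noncomm_ring
    have e2 : star (c l) * (b * b) = b * b * star (c l) := ((hcb l).mul_right (hcb l)).eq
    calc star (b * (s * (c l * (d i * W)))) * (b * (s * (c l * (d i * W))))
        = star W * star (d i) * (star (c l) * (s * b * (b * s)) * c l) * d i * W := by
          simp only [star_mul, hb.star_eq, hs.star_eq, mul_assoc]
      _ = star W * star (d i) * ((star (c l) * (b * b)) * (s * s) * c l) * d i * W := by
          rw [e1]; simp only [mul_assoc]
      _ = _ := by rw [e2]; simp only [mul_assoc]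
  simp only [Fintype.sum_prod_type, key, ← sum_mul, ← mul_sum, hc, mul_one]
  rw [mul_sum]; simp only [mul_assoc]

end Algebra

section Approx

variable {B : Type u} [CStarAlgebra B] [PartialOrder B] [StarOrderedRing B]

/-- The defect of the cut-off of `q` against a row whose square is `q`. -/
theorem norm_defect {q e : B} (he : e * star e = q) {g : ℝ} (hg : 0 < g) :
    ‖(1 - cfc (rootInv g) q * q * cfc (rootInv g) q) * e‖ ≤ √g := by
  have hq : 0 ≤ q := he ▸ mul_star_self_nonneg e
  have hqs : IsSelfAdjoint q := IsSelfAdjoint.of_nonneg hq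
  have hc := continuous_rootInv hg
  have e1 : 1 - cfc (rootInv g) q * q * cfc (rootInv g) q =
      cfc (fun t => 1 - rootInv g t * t * rootInv g t) q := by
    rw [cfc_sandwich hqs hc.continuousOn, cfc_sub (fun _ => (1 : ℝ))
      (fun t => rootInv g t * t * rootInv g t) q continuousOn_const
      ((hc.mul continuous_id).mul hc).continuousOn, cfc_const_one ℝ q hqs]
  set D := cfc (fun t => 1 - rootInv g t * t * rootInv g t) q with hD
  rw [e1]
  have hDc : Continuous fun t => 1 - rootInv g t * t * rootInv g t :=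
    continuous_const.sub ((hc.mul continuous_id).mul hc)
  refine Real.le_sqrt_of_sq_le ?_
  rw [sq, ← CStarRing.norm_self_mul_star, star_mul, hD, Cuntz.star_cfc_real, ← hD,
    show D * e * (star e * D) = D * (e * star e) * D by noncomm_ring, he, hD,
    cfc_sandwich hqs hDc.continuousOn]
  refine norm_cfc_le hg.le fun t ht => ?_
  have ht0 : 0 ≤ t := spectrum_nonneg_of_nonneg hq ht
  rw [rootInv_mul_self hg ht0, Real.norm_of_nonneg
    (mul_nonneg (mul_nonneg (by rw [sub_nonneg, div_le_one] <;> linarith) ht0) (by rw [sub_nonneg, div_le_one] <;> linarith))]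
  have h1 : 1 - t / (t + g) = g / (t + g) := by field_simp; ring
  rw [h1, show g / (t + g) * t * (g / (t + g)) = g * (g / (t + g)) * (t / (t + g)) by ring]
  have h2 : g / (t + g) ≤ 1 := (div_le_one (by linarith)).2 (by linarith)
  have h3 : t / (t + g) ≤ 1 := (div_le_one (by linarith)).2 (by linarith)
  calc g * (g / (t + g)) * (t / (t + g)) ≤ g * 1 * 1 :=
        mul_le_mul (mul_le_mul_of_nonneg_left h2 hg.le) h3 (by positivity) (by positivity)
    _ = g := by ring

variable {J ρ M P q K k : ℕ}

/-- **Absorption**: with colours and orthogonal elements commuting with the data, `H` is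
approximately `star (b * C) * (b * C)`, provided sums of `K` conjugates of `b * b` act almost as the
unit on the rows. -/
theorem exists_approx_factor (hP : 0 < P) {b H R : B} (hb : IsSelfAdjoint b)
    (Z : Fin q → Fin P → B) (hZ : ∀ c c', ∑ i, star (Z i c) * Z i c' = if c = c' then H else 0)
    (E : Fin J → Fin M → Fin M → B) (Q : Fin J → B)
    (hd : ∀ g : ℝ, 0 < g → ∃ d : Fin K → B, (∀ i j a a', Commute (d i) (E j a a')) ∧
      ∀ i e, ‖(∑ l, star (d l) * (b * b) * d l) * Z i e - Z i e‖ ≤ g)
    (hEs : ∀ j a c, star (E j a c) = E j c a)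
    (hEE : ∀ j a c e, E j a c * E j c e = Q j * E j a e)
    (hE0 : ∀ j a c e f, c ≠ e → E j a c * E j e f = 0)
    (hEd : ∀ j, ∑ a, E j a a = Q j)
    (hR : star R * (∑ j, Q j * Q j) * R = 1)
    (s : Fin J → B) (hs : ∀ j, IsSelfAdjoint (s j)) (hs0 : ∀ i j, i ≠ j → s i * s j = 0)
    (c : Fin J → Fin k → B) (hc : ∀ j, ∑ l, star (c j l) * (s j * s j) * c j l = 1)
    (hHE : ∀ j a a', Commute H (E j a a')) (hHR : Commute H (star R))
    (hbE : ∀ j a a', Commute b (E j a a')) (hbs : ∀ j, Commute (s j) b)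
    (hcb : ∀ j l, Commute (star (c j l)) b)
    (hZE : ∀ i e j a a', Commute (Z i e) (E j a a'))
    (hsE : ∀ i j a a', Commute (s i) (E j a a')) (hcE : ∀ i l j a a', Commute (c i l) (E j a a'))
    (o : Fin M) (num : (Fin (M / P + 1) × Fin q) × Fin K × Fin k → Fin M)
    (hnum : Function.Injective num) {r : ℝ} (hr : 0 < r) :
    ∃ C : B, ‖star (b * C) * (b * C) - H‖ ≤ r := by
  classical
  set v : Fin J → Fin M → B := fun j a => E j o a * R with hv
  set W : Fin J → Fin (M / P + 1) × Fin q → B := fun j => slice hP Z (v j) with hW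
  -- the conjugates, accurate compared with the rows
  set L₀ : ℝ := ∑ j : Fin J, ∑ x : Fin (M / P + 1) × Fin q, ‖W j x‖ * ∑ a : Fin M, ‖v j a‖
    with hL₀
  have hL₀0 : 0 ≤ L₀ := by positivity
  obtain ⟨d, hdE, hdZ⟩ := hd (r / 2 / (L₀ + 1)) (by positivity)
  set u := ∑ l, star (d l) * (b * b) * d l with hu
  set T : Fin J → (Fin (M / P + 1) × Fin q) × Fin K × Fin k → B :=
    fun j x => s j * (c j x.2.2 * (d x.2.1 * W j x.1)) with hT
  -- decomposition
  have hH₀ : ∑ j, ∑ x, star (b * T j x) * (b * T j x) = ∑ j, ∑ x, star (W j x) * u * W j x := by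
    refine sum_congr rfl fun j _ => ?_
    rw [Fintype.sum_prod_type]
    refine sum_congr rfl fun x _ => ?_
    exact sum_insert_unit hb (hs j) d (c j) (hc j) (hbs j) (hcb j) (W j x)
  have hH : ∑ j, ∑ x, star (W j x) * W j x = H := by
    have h1 : ∀ j, ∑ x, star (W j x) * W j x = star R * (H * (Q j * Q j)) * R := by
      intro j
      rw [hW, sum_slice hP Z hZ]
      have h2 : ∀ a, star (v j a) * H * v j a = star R * (H * (Q j * E j a a)) * R := fun a => by
        rw [hv, star_mul, hEs, ← hEE j a o a]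
        calc star R * E j a o * H * (E j o a * R) = star R * (E j a o * H) * E j o a * R := by
              simp only [mul_assoc]
          _ = _ := by rw [← (hHE j a o).eq]; simp only [mul_assoc]
      simp only [h2, ← sum_mul, ← mul_sum, hEd]
    simp only [h1, ← sum_mul, ← mul_sum]
    rw [← mul_assoc, ← hHR.eq, mul_assoc, mul_assoc, ← mul_assoc (star R), hR, mul_one]
  -- a constant for the error, fixed before the cut-off
  set L : ℝ := ∑ j : Fin J, ∑ x : (Fin (M / P + 1) × Fin q) × Fin K × Fin k,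
    ‖b * T j x‖ * (‖b * (s j * (c j x.2.2 * d x.2.1))‖ *
      ∑ a : Fin M, ‖Z x.1.2 ⟨(a : ℕ) % P, Nat.mod_lt _ hP⟩‖ * ‖R‖) with hL
  have hL0 : 0 ≤ L := by positivity
  set g : ℝ := (r / 2 / (L + 1)) ^ 2 with hg
  have hg0 : 0 < g := by positivity
  have hgs : √g = r / 2 / (L + 1) := Real.sqrt_sq (by positivity)
  have hins : ‖∑ j, ∑ x, star (b * T j x) * (b * T j x) - H‖ ≤ r / 2 := by
    have key : ∀ j x, ‖star (W j x) * (u * W j x - W j x)‖ ≤
        ‖W j x‖ * (∑ a : Fin M, ‖v j a‖) * (r / 2 / (L₀ + 1)) := by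
      intro j x
      refine (norm_mul_le _ _).trans ?_
      rw [norm_star, mul_assoc]
      refine mul_le_mul_of_nonneg_left ?_ (norm_nonneg _)
      simp only [hW, slice, mul_sum, ← sum_sub_distrib, ← mul_assoc, ← sub_mul]
      rw [sum_mul]
      refine (norm_sum_le _ _).trans ((sum_le_sum fun a _ => ?_).trans
        (sum_le_sum_of_subset_of_nonneg (subset_univ _) fun a _ _ => by positivity))
      refine (norm_mul_le _ _).trans ?_
      rw [mul_comm]
      exact mul_le_mul_of_nonneg_left (hdZ _ _) (norm_nonneg _)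
    rw [hH₀]
    conv_lhs => arg 1; arg 2; rw [← hH]
    simp only [← sum_sub_distrib, mul_assoc, ← mul_sub]
    refine (norm_sum_le _ _).trans ((sum_le_sum fun j _ => norm_sum_le _ _).trans
      ((sum_le_sum fun j _ => sum_le_sum fun x _ => key j x).trans ?_))
    rw [show (∑ j : Fin J, ∑ x : Fin (M / P + 1) × Fin q,
        ‖W j x‖ * (∑ a : Fin M, ‖v j a‖) * (r / 2 / (L₀ + 1))) = L₀ * (r / 2 / (L₀ + 1)) by
      rw [hL₀, sum_mul]
      exact sum_congr rfl fun j _ => (sum_mul ..).symm]
    rw [mul_div_assoc', div_le_iff₀ (by positivity)]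
    nlinarith
  set p : Fin J → B := fun j => Q j * E j o o with hp
  set f : Fin J → B := fun j => cfc (rootInv g) (p j) with hf
  set F : Fin J → B := fun j => f j * p j * f j with hF
  have hpE : ∀ j, p j = E j o o * E j o o := fun j => (hEE j o o o).symm
  have hfs : ∀ j, star (f j) = f j := fun j => Cuntz.star_cfc_real _ _
  have hcom : ∀ j y, (∀ a a', Commute y (E j a a')) → Commute y (f j) := fun j y hy => by
    have h1 : Commute (p j) y := by rw [hpE]; exact ((hy o o).mul_right (hy o o)).symm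
    exact (h1.cfc_real _).symm
  have hcomF : ∀ j y, (∀ a a', Commute y (E j a a')) → Commute y (F j) := fun j y hy =>
    ((hcom j y hy).mul_right (by rw [hpE]; exact (hy o o).mul_right (hy o o))).mul_right (hcom j y hy)
  set G : Fin J → (Fin (M / P + 1) × Fin q) × Fin K × Fin k → B :=
    fun j x => E j (num x) o * f j with hG
  have hGcom : ∀ j x y, (∀ a a', Commute y (E j a a')) → Commute y (G j x) :=
    fun j x y hy => (hy _ _).mul_right (hcom j y hy)
  have hGs : ∀ j x, star (G j x) = f j * E j o (num x) := fun j x => by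
    rw [hG, star_mul, hfs, hEs]
  have hbG : ∀ j x, Commute b (G j x) := fun j x => hGcom j x b (hbE j)
  have hbG' : ∀ j x, Commute b (star (G j x)) := fun j x => by
    rw [hGs]; exact (hcom j b (hbE j)).mul_right (hbE j _ _)
  refine ⟨∑ j, ∑ x, G j x * T j x, ?_⟩
  have hoff : ∀ j x j' x', (j, x) ≠ (j', x') →
      star (b * (G j x * T j x)) * (b * (G j' x' * T j' x')) = 0 := by
    intro j x j' x' hne
    have e : star (b * (G j x * T j x)) * (b * (G j' x' * T j' x')) =
        star (T j x) * ((star (G j x) * G j' x') * (b * b)) * T j' x' := by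
      have h1 : b * (b * G j' x') = G j' x' * (b * b) := by
        rw [← mul_assoc]; exact ((hbG j' x').mul_left (hbG j' x')).eq
      calc star (b * (G j x * T j x)) * (b * (G j' x' * T j' x'))
          = star (T j x) * star (G j x) * (b * (b * G j' x')) * T j' x' := by
            simp only [star_mul, hb.star_eq, mul_assoc]
        _ = _ := by rw [h1]; simp only [mul_assoc]
    rw [e]
    by_cases hj : j = j'
    · subst hj
      have hx : num x ≠ num x' := fun h => hne (by rw [hnum h])
      have : star (G j x) * G j x' = 0 := by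
        rw [hGs, hG, show f j * E j o (num x) * (E j (num x') o * f j) =
          f j * (E j o (num x) * E j (num x') o) * f j by noncomm_ring, hE0 j o _ _ o hx,
          mul_zero, zero_mul]
      rw [this, zero_mul, mul_zero, zero_mul]
    · have hmid : Commute (s j) ((star (G j x) * G j' x') * (b * b)) := by
        refine (Commute.mul_right ?_ (hGcom j' x' (s j) (hsE j j'))).mul_right
          ((hbs j).mul_right (hbs j))
        rw [hGs]
        exact (hcom j (s j) (hsE j j)).mul_right (hsE j j _ _)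
      simp only [hT, star_mul, (hs j).star_eq, mul_assoc]
      rw [show ∀ y : B, s j * (star (G j x) * (G j' x' * (b * (b * (s j' * y))))) =
        star (G j x) * G j' x' * (b * b) * (s j * s j') * y from fun y => by
          rw [show star (G j x) * G j' x' * (b * b) * (s j * s j') * y =
            (star (G j x) * G j' x' * (b * b) * s j) * s j' * y by noncomm_ring, ← hmid.eq]
          noncomm_ring, hs0 j j' hj, mul_zero, zero_mul, mul_zero, mul_zero, mul_zero]
  have hdiag : ∀ j x, star (b * (G j x * T j x)) * (b * (G j x * T j x)) =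
      star (b * T j x) * (F j * (b * T j x)) := by
    intro j x
    have h1 : star (G j x) * G j x = F j := by
      rw [hGs, hG, show f j * E j o (num x) * (E j (num x) o * f j) =
        f j * (E j o (num x) * E j (num x) o) * f j by noncomm_ring, hEE]
    rw [show b * (G j x * T j x) = G j x * (b * T j x) by
      rw [← mul_assoc, (hbG j x).eq, mul_assoc], star_mul, mul_assoc, ← mul_assoc (star (G j x)),
      h1]
  have hsum : star (b * ∑ j, ∑ x, G j x * T j x) * (b * ∑ j, ∑ x, G j x * T j x) =
      ∑ j, ∑ x, star (b * T j x) * (F j * (b * T j x)) := by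
    simp only [mul_sum, star_sum, sum_mul]
    refine sum_congr rfl fun j _ => sum_congr rfl fun x _ => ?_
    rw [sum_eq_single j, sum_eq_single x, hdiag]
    · exact fun x' _ hne => hoff j x' j x fun h => hne (congrArg Prod.snd h)
    · exact fun h => absurd (mem_univ x) h
    · exact fun j' _ hne => sum_eq_zero fun x' _ => hoff j' x' j x fun h => hne (congrArg Prod.fst h)
    · exact fun h => absurd (mem_univ j) h
  rw [hsum]
  refine (norm_sub_le_norm_sub_add_norm_sub _ (∑ j, ∑ x, star (b * T j x) * (b * T j x)) _).trans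
    ((add_le_add ?_ hins).trans_eq (add_halves r))
  simp only [← sum_sub_distrib, ← mul_sub]
  have hbound : ∀ j x, ‖star (b * T j x) * (F j * (b * T j x) - b * T j x)‖ ≤
      ‖b * T j x‖ * (‖b * (s j * (c j x.2.2 * d x.2.1))‖ *
        ∑ a : Fin M, ‖Z x.1.2 ⟨(a : ℕ) % P, Nat.mod_lt _ hP⟩‖ * ‖R‖) * √g := by
    intro j x
    set D := 1 - F j with hD
    have hcomD : ∀ y, (∀ a a', Commute y (E j a a')) → Commute D y := fun y hy => by
      rw [hD]; exact (Commute.one_left y).sub_left (hcomF j y hy).symm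
    set U := b * (s j * (c j x.2.2 * d x.2.1)) with hU
    have hDU : Commute D U := ((hcomD b (hbE j)).mul_right ((hcomD _ (hsE j j)).mul_right
      ((hcomD _ (hcE j _ j)).mul_right (hcomD _ (hdE _ j)))))
    have hbT : b * T j x = U * W j x.1 := by simp only [hU, hT, mul_assoc]
    have hDW : D * W j x.1 = ∑ a ∈ univ.filter fun a : Fin M => (a : ℕ) / P = x.1.1,
        Z x.1.2 ⟨(a : ℕ) % P, Nat.mod_lt _ hP⟩ * (D * E j o a) * R := by
      simp only [hW, slice, hv, mul_sum]
      refine sum_congr rfl fun a _ => ?_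
      rw [← mul_assoc, (hcomD _ fun a' a'' => hZE _ _ j a' a'').eq]
      simp only [mul_assoc]
    have hDe : ∀ a, ‖D * E j o a‖ ≤ √g := fun a =>
      norm_defect (q := p j) (by rw [hEs, hEE]) hg0
    have e1 : F j * (b * T j x) - b * T j x = -(U * (D * W j x.1)) := by
      have e2 : U * (D * W j x.1) = D * (b * T j x) := by
        rw [hbT, ← mul_assoc, ← hDU.eq, mul_assoc]
      rw [e2, hD, sub_mul, one_mul, neg_sub]
    rw [e1, mul_neg, norm_neg]
    have hW' : ‖D * W j x.1‖ ≤
        (∑ a : Fin M, ‖Z x.1.2 ⟨(a : ℕ) % P, Nat.mod_lt _ hP⟩‖ * ‖R‖) * √g := by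
      rw [hDW, sum_mul]
      refine (norm_sum_le _ _).trans ((sum_le_sum fun a _ => ?_).trans
        (sum_le_sum_of_subset_of_nonneg (subset_univ _) fun a _ _ => by positivity))
      calc _ ≤ ‖Z x.1.2 ⟨(a : ℕ) % P, Nat.mod_lt _ hP⟩ * (D * E j o a)‖ * ‖R‖ := norm_mul_le _ _
        _ ≤ ‖Z x.1.2 ⟨(a : ℕ) % P, Nat.mod_lt _ hP⟩‖ * √g * ‖R‖ := by
            gcongr
            exact (norm_mul_le _ _).trans (mul_le_mul_of_nonneg_left (hDe a) (norm_nonneg _))
        _ = _ := by ring
    calc ‖star (b * T j x) * (U * (D * W j x.1))‖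
        ≤ ‖b * T j x‖ * (‖U‖ * ‖D * W j x.1‖) := by
          refine (norm_mul_le _ _).trans ?_
          rw [norm_star]
          exact mul_le_mul_of_nonneg_left (norm_mul_le _ _) (norm_nonneg _)
      _ ≤ ‖b * T j x‖ * (‖U‖ * ((∑ a : Fin M, ‖Z x.1.2 ⟨(a : ℕ) % P, Nat.mod_lt _ hP⟩‖ * ‖R‖) * √g)) := by
          gcongr
      _ = _ := by ring
  refine (norm_sum_le _ _).trans ((sum_le_sum fun j _ => norm_sum_le _ _).trans
    ((sum_le_sum fun j _ => sum_le_sum fun x _ => hbound j x).trans ?_))
  have hcollect : (∑ j : Fin J, ∑ x : (Fin (M / P + 1) × Fin q) × Fin K × Fin k,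
    ‖b * T j x‖ * (‖b * (s j * (c j x.2.2 * d x.2.1))‖ *
      ∑ a : Fin M, ‖Z x.1.2 ⟨(a : ℕ) % P, Nat.mod_lt _ hP⟩‖ * ‖R‖) * √g) = L * √g := by
    rw [hL, sum_mul]
    exact sum_congr rfl fun j _ => (sum_mul ..).symm
  rw [hcollect, hgs, mul_div_assoc', div_le_iff₀ (by positivity)]
  nlinarith

end Approx

section Main

variable {A : Type u} [CStarAlgebra A]

/-- Constant sequences. -/
def constClass : A →⋆ₐ[ℂ] SeqQuot A (atTop : Filter ℕ) :=
  (seqMk A atTop).comp
    { toFun := BoundedContinuousFunction.const ℕ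
      map_one' := rfl
      map_mul' := fun _ _ => rfl
      map_zero' := rfl
      map_add' := fun _ _ => rfl
      commutes' := fun _ => rfl
      map_star' := fun _ => rfl }

theorem commute_constClass (a : A) {x : SeqQuot A atTop} (hx : x ∈ centSub A atTop) :
    Commute (constClass a) x :=
  ((StarSubalgebra.mem_centralizer_iff ℂ).1 hx _ ⟨a, rfl⟩).1

attribute [local instance] centOrder centStarOrdered

/-- The inverse root of a positive unit. -/
theorem exists_inv_root {B : Type u} [CStarAlgebra B] [PartialOrder B] [StarOrderedRing B] {U : B}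
    (hU0 : 0 ≤ U) (hU : IsUnit U) : ∃ R : B, star R * U * R = 1 := by
  have hspec : ∀ t ∈ spectrum ℝ U, 0 < t := fun t ht =>
    lt_of_le_of_ne (spectrum_nonneg_of_nonneg hU0 ht)
      fun h => (spectrum.zero_notMem_iff ℝ).2 hU (h ▸ ht)
  have hUs : IsSelfAdjoint U := IsSelfAdjoint.of_nonneg hU0
  have hco : ContinuousOn (fun t : ℝ => (√t)⁻¹) (spectrum ℝ U) :=
    Real.continuous_sqrt.continuousOn.inv₀ fun t ht => (Real.sqrt_pos.2 (hspec t ht)).ne'
  refine ⟨cfc (fun t : ℝ => (√t)⁻¹) U, ?_⟩
  rw [Cuntz.star_cfc_real, cfc_sandwich hUs hco, ← cfc_const_one ℝ U hUs]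
  refine cfc_congr fun t ht => ?_
  have := hspec t ht
  rw [mul_comm (√t)⁻¹ t, mul_assoc, ← mul_inv, Real.mul_self_sqrt this.le,
    mul_inv_cancel₀ this.ne']

/-- What the absorption needs inside a subalgebra commuting with the constants. -/
structure Frame (B : Type u) [CStarAlgebra B] (J k M : ℕ) where
  /-- The units. -/
  E : Fin J → Fin M → Fin M → B
  /-- Their weights. -/
  Q : Fin J → B
  /-- The inverse root of the total weight. -/
  R : B
  /-- Orthogonal elements. -/
  s : Fin J → B
  /-- Their fullness witnesses. -/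
  c : Fin J → Fin k → B
  star_E : ∀ j a a', star (E j a a') = E j a' a
  mul_same : ∀ j a a' e, E j a a' * E j a' e = Q j * E j a e
  mul_ne : ∀ j a a' e f, a' ≠ e → E j a a' * E j e f = 0
  diag : ∀ j, ∑ a, E j a a = Q j
  norm_R : star R * (∑ j, Q j * Q j) * R = 1
  s_sa : ∀ j, IsSelfAdjoint (s j)
  s_orth : ∀ i j, i ≠ j → s i * s j = 0
  full : ∀ j, ∑ l, star (c j l) * (s j * s j) * c j l = 1
  comm_s : ∀ i j a a', Commute (s i) (E j a a')
  comm_c : ∀ i l j a a', Commute (c i l) (E j a a')

/-- A frame from two blocks of slots. -/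
theorem exists_frame {J k M mw mE : ℕ} {δ : ℝ}
    (hw : ∀ (B : Type u) [CStarAlgebra B] [PartialOrder B] [StarOrderedRing B]
      (X : Fin mw → Fin J → B), IsSlots δ X →
      ∃ w : Fin J → B, (∀ j, 0 ≤ w j) ∧ (∀ i j, i ≠ j → w i * w j = 0) ∧ ∀ j, FullBy k (w j))
    (hcol : ∀ (B : Type u) [CStarAlgebra B] [PartialOrder B] [StarOrderedRing B]
      (X : Fin mE → Fin J → B), IsSlots δ X →
      ∃ (E : Fin J → Fin M → Fin M → B) (Q : Fin J → B),
        (∀ j a b, star (E j a b) = E j b a) ∧
        (∀ j a b c, E j a b * E j b c = Q j * E j a c) ∧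
        (∀ j a b c d, b ≠ c → E j a b * E j c d = 0) ∧
        (∀ j, ∑ a, E j a a = Q j) ∧ IsUnit (∑ j, Q j * Q j))
    {B : Type u} [CStarAlgebra B] [PartialOrder B] [StarOrderedRing B]
    (Y : Fin mw ⊕ Fin mE → Fin J → B) (hY : IsSlots δ Y) : Nonempty (Frame B J k M) := by
  set Tw : Set (Fin mw ⊕ Fin mE) := Set.range Sum.inl
  set TE : Set (Fin mw ⊕ Fin mE) := Set.range Sum.inr
  have hd : Disjoint Tw TE := by
    rw [Set.disjoint_left]; rintro _ ⟨s, rfl⟩ ⟨t, ht⟩; exact Sum.inr_ne_inl ht
  obtain ⟨w, hw0, hworth, hwf⟩ := hw (P101.gen Y Tw)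
    (fun s j => ⟨Y (Sum.inl s) j, slot_mem_gen (Set.mem_range_self _) j⟩)
    ((hY.comp Sum.inl Sum.inl_injective).codRestrict (P101.gen Y Tw)
      fun s j => slot_mem_gen (Set.mem_range_self _) j)
  obtain ⟨E, Q, hEs, hEE, hE0, hEd, hU⟩ := hcol (P101.gen Y TE)
    (fun s j => ⟨Y (Sum.inr s) j, slot_mem_gen (Set.mem_range_self _) j⟩)
    ((hY.comp Sum.inr Sum.inr_injective).codRestrict (P101.gen Y TE)
      fun s j => slot_mem_gen (Set.mem_range_self _) j)
  choose c hc using hwf
  have hQs : ∀ j, star (Q j) = Q j := fun j => by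
    rw [← hEd j, star_sum]; simp only [hEs]
  have hU0 : 0 ≤ ∑ j, Q j * Q j := sum_nonneg fun j _ => by
    have := star_mul_self_nonneg (Q j)
    rwa [hQs] at this
  obtain ⟨R, hR⟩ := exists_inv_root hU0 hU
  let iE := (P101.gen Y TE).subtype
  let iW := (P101.gen Y Tw).subtype
  have hWE : ∀ z z', Commute (iW z) (iE z') := fun z z' => (starCommute_gen hY hd z.2 z'.2).1
  exact ⟨{
    E := fun j a a' => iE (E j a a'), Q := fun j => iE (Q j), R := iE R,
    s := fun j => iW (CFC.sqrt (w j)), c := fun j l => iW (c j l),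
    star_E := fun j a a' => by rw [← map_star, hEs],
    mul_same := fun j a a' e => by simp only [← map_mul, hEE],
    mul_ne := fun j a a' e f h => by simp only [← map_mul, hE0 j a a' e f h, map_zero],
    diag := fun j => by rw [← map_sum, hEd],
    norm_R := by simp only [← map_star, ← map_mul, ← map_sum, hR, map_one],
    s_sa := fun j => (IsSelfAdjoint.of_nonneg (CFC.sqrt_nonneg (w j))).map iW,
    s_orth := fun i j hij => by
      rw [← map_mul, sqrt_mul_eq_zero (hw0 i), map_zero]
      refine star_injective ?_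
      rw [star_zero, star_mul, (IsSelfAdjoint.of_nonneg (CFC.sqrt_nonneg (w j))).star_eq,
        (IsSelfAdjoint.of_nonneg (hw0 i)).star_eq,
        sqrt_mul_eq_zero (hw0 j) (hworth j i (Ne.symm hij))],
    full := fun j => by
      simp only [← map_star, ← map_mul, ← map_sum, CFC.sqrt_mul_sqrt_self (w j) (hw0 j), hc,
        map_one],
    comm_s := fun _ _ _ _ => hWE _ _, comm_c := fun _ _ _ _ _ => hWE _ _ }⟩

omit [CStarAlgebra A] in
theorem card_slices {k K N n : ℕ} (hn : 4 * N * k * K ≤ 2 ^ n) :
    Fintype.card ((Fin (2 ^ n / ((4 * k * K + 2) * N) + 1) × Fin (2 * N)) × Fin K × Fin k) ≤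
      2 ^ n := by
  simp only [Fintype.card_prod, Fintype.card_fin]
  have h1 : 2 ^ n / ((4 * k * K + 2) * N) * ((4 * k * K + 2) * N) ≤ 2 ^ n := Nat.div_mul_le_self _ _
  set D := 2 ^ n / ((4 * k * K + 2) * N)
  nlinarith [Nat.zero_le (D * N)]

/-- An approximate factorisation in the sequence algebra gives an exact one in `A`. -/
theorem exists_exact [PartialOrder A] [StarOrderedRing A] {b h : A} (hh : 0 ≤ h) {ε : ℝ}
    (C : SeqQuot A (atTop : Filter ℕ))
    (hC : ‖star (constClass b * C) * (constClass b * C) - constClass h‖ < ε) :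
    ∃ c : A, star (b * c) * (b * c) = cut h ε := by
  obtain ⟨Cs, rfl⟩ := seqMk_surjective C
  obtain ⟨Y', hY'⟩ : ∃ Y' : ℕ →ᵇ A, Y' =
      star (BoundedContinuousFunction.const ℕ b * Cs) * (BoundedContinuousFunction.const ℕ b * Cs) -
        BoundedContinuousFunction.const ℕ h := ⟨_, rfl⟩
  have hn' : ‖seqMk A atTop Y'‖ < ε := by
    rw [hY', map_sub, map_mul, map_star, map_mul]
    exact hC
  obtain ⟨V, hV, hVn⟩ := Submodule.Quotient.norm_mk_lt (S := nullSeq A atTop) (seqMk A atTop Y')
    (sub_pos.2 hn')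
  have hVeq : seqMk A atTop V = seqMk A atTop Y' := hV
  rw [seqMk_eq_iff] at hVeq
  have hV' : ‖V‖ < ε := by linarith
  obtain ⟨m, hm⟩ := (hVeq.eventually (gt_mem_nhds (sub_pos.2 hV'))).exists
  have hYm : ‖Y' m‖ < ε := by
    have h1 := norm_le_norm_sub_add (Y' m) (V m)
    rw [norm_sub_rev] at hm
    have h2 := V.norm_coe_le_norm m
    linarith
  obtain ⟨e, hdm⟩ := exists_cut_eq hh (star_mul_self_nonneg (b * Cs m))
    (show ‖h - star (b * Cs m) * (b * Cs m)‖ < ε by
      rw [norm_sub_rev]
      simpa [hY'] using hYm)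
  exact ⟨Cs m * e, by rw [← hdm]; simp only [star_mul, mul_assoc]⟩

/-- Colours and orthogonal elements in the central algebra absorb a bounded ratio of copies. -/
theorem absorb : AbsorbStatement.{u} := by
  intro A _ _ _ hsimp hdd b hb hb0
  let _ : PartialOrder A := CStarAlgebra.spectralOrder A
  let _ : StarOrderedRing A := CStarAlgebra.spectralOrderedRing A
  have hbs : IsSelfAdjoint b := by obtain ⟨w, rfl⟩ := hb; exact IsSelfAdjoint.star_mul_self w
  -- simplicity
  have hbb : b * b ≠ 0 := fun h => by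
    have h' : star b * b = 0 := by rwa [hbs.star_eq]
    exact hb0 (CStarRing.star_mul_self_eq_zero_iff b |>.1 h')
  obtain ⟨K, u, u', hu⟩ := hsimp _ hbb
  obtain ⟨d, hd⟩ := fullBy_of_sum (by simpa [hbs.star_eq] using star_mul_self_nonneg b) u u' hu
  -- slots
  have he : IsEmpty (centSub A (atTop : Filter ℕ) →⋆ₐ[ℂ] ℂ) :=
    ⟨fun φ => no_character_of_dimensionDrop le_rfl hdd (exists_character_of_hom φ)⟩
  obtain ⟨J, δ, hδ, x₀, hx₀⟩ := noCharStatement (centSub A (atTop : Filter ℕ)) he
  obtain ⟨mw, k, hw⟩ := orthN_of_orth orthStatement.{u} J J δ hδ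
  refine ⟨4 * k * K + 2, by omega, fun h hh N hN Z hZ ε hε => ?_⟩
  have hP : 0 < (4 * k * K + 2) * N := by positivity
  obtain ⟨n, hn⟩ : ∃ n, 4 * N * k * K ≤ 2 ^ n := ⟨_, Nat.lt_two_pow_self.le⟩
  obtain ⟨mE, hcol⟩ := colours.{u} J n δ hδ
  obtain ⟨X, hX⟩ := exists_slots hx₀ (Fintype.card (Fin mw ⊕ Fin mE))
  obtain ⟨F⟩ := exists_frame hw hcol (fun i => X (Fintype.equivFin (Fin mw ⊕ Fin mE) i))
    (hX.comp _ (Fintype.equivFin _).injective)
  let inc : centSub A (atTop : Filter ℕ) →⋆ₐ[ℂ] SeqQuot A atTop := (centSub A atTop).subtype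
  have hC : ∀ a z, Commute (constClass a) (inc z) := fun a z => commute_constClass a z.2
  let _ : PartialOrder (SeqQuot A (atTop : Filter ℕ)) := CStarAlgebra.spectralOrder _
  let _ : StarOrderedRing (SeqQuot A (atTop : Filter ℕ)) := CStarAlgebra.spectralOrderedRing _
  obtain ⟨C, hCle⟩ := exists_approx_factor (b := constClass b) (H := constClass h) (R := inc F.R) hP
    (hbs.map constClass)
    (fun i e => constClass (Z i e))
    (fun e e' => by
      simp only [← map_star, ← map_mul, ← map_sum, hZ]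
      split <;> simp)
    (fun j a a' => inc (F.E j a a')) (fun j => inc (F.Q j))
    (fun g hg => ⟨fun i => constClass (d i), fun _ _ _ _ => hC _ _, fun i e => by
      simp only [← map_star, ← map_mul, ← map_sum, hd, one_mul, sub_self, norm_zero, hg.le]⟩)
    (fun j a a' => by rw [← map_star, F.star_E])
    (fun j a a' e => by simp only [← map_mul, F.mul_same])
    (fun j a a' e f h => by simp only [← map_mul, F.mul_ne j a a' e f h, map_zero])
    (fun j => by rw [← map_sum, F.diag])
    (by simp only [← map_star, ← map_mul, ← map_sum, F.norm_R, map_one])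
    (fun j => inc (F.s j)) (fun j => (F.s_sa j).map inc)
    (fun i j hij => by rw [← map_mul, F.s_orth i j hij, map_zero])
    (fun j l => inc (F.c j l))
    (fun j => by simp only [← map_star, ← map_mul, ← map_sum, F.full, map_one])
    (fun _ _ _ => hC _ _) (by rw [← map_star]; exact hC _ _)
    (fun _ _ _ => hC _ _) (fun _ => (hC _ _).symm)
    (fun _ _ => by rw [← map_star]; exact (hC _ _).symm)
    (fun _ _ _ _ _ => hC _ _)
    (fun i j a a' => (F.comm_s i j a a').map inc) (fun i l j a a' => (F.comm_c i l j a a').map inc)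
    ⟨0, Nat.two_pow_pos n⟩ (Fin.castLE (card_slices hn) ∘ Fintype.equivFin _)
    ((Fin.castLE_injective (card_slices hn)).comp (Fintype.equivFin _).injective) (half_pos hε)
  obtain ⟨c, hc⟩ := exists_exact (b := b)
    (by obtain ⟨w', rfl⟩ := hh.1; exact star_mul_self_nonneg w') C
    (hCle.trans_lt (half_lt_self hε))
  exact ⟨b * c, c, rfl, hc⟩

end Main

end Vale.Agent.P095.Compare
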