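import Vale.Agent.P095.Compare.Gram

/-!
# P095 comparison: quadratic forms of kernels under completely positive maps
-/

noncomputable section

namespace Vale.Agent.P095.Compare

open Vale.Agent.P095.Full

universe u

open scoped ComplexOrder

variable {A : Type u} [CStarAlgebra A] [PartialOrder A] [StarOrderedRing A]

/-- A completely positive map into matrices sends positive kernels to positive kernels. -/
theorem map_form_nonneg {κ : Type*} [Fintype κ] [DecidableEq κ] {k : ℕ}
    {φ : A →ₗ[ℂ] Matrix (Fin k) (Fin k) ℂ} (hφ : IsCPMap φ) (R : κ → κ → A)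
    (hR : ∀ b : κ → A, 0 ≤ ∑ x, ∑ y, star (b x) * R x y * b y) (v : κ × Fin k → ℂ) :
    0 ≤ ∑ x, ∑ y, star (v x) * φ (R x.1 y.1) x.2 y.2 * v y := by
  obtain ⟨Z, hZ⟩ := exists_gram R hR
  obtain ⟨m, ⟨e⟩⟩ : ∃ m, Nonempty (Fin m ≃ κ) := ⟨_, ⟨(Fintype.equivFin κ).symm⟩⟩
  have e0 : ∑ x, ∑ y, star (v x) * φ (R x.1 y.1) x.2 y.2 * v y =
      ∑ z, ∑ x : κ, ∑ y : κ, ∑ a, ∑ a', star (v (x, a)) * φ (star (Z z x) * Z z y) a a' * v (y, a') := by
    rw [Fintype.sum_prod_type]
    rw [Finset.sum_comm (t := (Finset.univ : Finset κ)) (s := (Finset.univ : Finset κ))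
      (f := fun z x => ∑ y : κ, ∑ a, ∑ a', star (v (x, a)) * φ (star (Z z x) * Z z y) a a' * v (y, a'))]
    refine Finset.sum_congr rfl fun x _ => ?_
    rw [Finset.sum_comm (s := (Finset.univ : Finset κ)) (t := (Finset.univ : Finset κ))
      (f := fun z y => ∑ a, ∑ a', star (v (x, a)) * φ (star (Z z x) * Z z y) a a' * v (y, a'))]
    refine Eq.trans (Finset.sum_congr rfl fun a _ => Fintype.sum_prod_type _) ?_
    rw [Finset.sum_comm]
    refine Finset.sum_congr rfl fun y _ => ?_
    rw [Finset.sum_comm (s := (Finset.univ : Finset κ)) (t := (Finset.univ : Finset (Fin k)))]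
    refine Finset.sum_congr rfl fun a _ => ?_
    rw [Finset.sum_comm (s := (Finset.univ : Finset κ)) (t := (Finset.univ : Finset (Fin k)))]
    refine Finset.sum_congr rfl fun a' _ => ?_
    rw [hZ, map_sum, Matrix.sum_apply, Finset.mul_sum, Finset.sum_mul]
  rw [e0]
  refine Finset.sum_nonneg fun z _ => ?_
  by_cases hk : k = 0
  · subst hk; simp
  obtain ⟨j⟩ : Nonempty (Fin k) := ⟨⟨0, Nat.pos_of_ne_zero hk⟩⟩
  obtain ⟨w, hw⟩ := hφ m (fun i => Z z (e i))
    (fun i => Matrix.of fun a _ => v (e i, a))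
  have := congrArg (fun M : Matrix (Fin k) (Fin k) ℂ => M j j) hw
  simp only [Matrix.sum_apply, Matrix.mul_apply, Matrix.star_apply, Matrix.of_apply,
    Finset.sum_mul] at this
  rw [← e.sum_comp]
  refine le_of_le_of_eq
    ((Finset.sum_nonneg fun a _ => star_mul_self_nonneg (w a j)) :
      (0 : ℂ) ≤ ∑ a, star (w a j) * w a j) ?_
  rw [← this]
  refine Finset.sum_congr rfl fun i _ => ?_
  rw [← e.sum_comp]
  exact Finset.sum_congr rfl fun i' _ => Finset.sum_comm

/-- A completely positive map out of matrices is given by rows. -/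
theorem exists_kraus {n : ℕ} {ψ : Matrix (Fin n) (Fin n) ℂ →ₗ[ℂ] A} (h : IsCPMapMat A ψ) :
    ∃ z : Fin n → Fin n → A,
      ∀ M, ψ M = ∑ l, ∑ a, ∑ b, M a b • (star (z l a) * z l b) := by
  classical
  obtain ⟨z, hz⟩ := exists_gram (fun a b : Fin n => ψ (Matrix.single a b 1)) fun c => by
    obtain rfl | hn := Nat.eq_zero_or_pos n
    · simp
    let i0 : Fin n := ⟨0, hn⟩
    obtain ⟨w, hw⟩ := h n (fun a => Matrix.single i0 a 1) c
    refine le_of_le_of_eq (star_mul_self_nonneg w) ?_
    rw [← hw]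
    refine Finset.sum_congr rfl fun a _ => Finset.sum_congr rfl fun b _ => ?_
    rw [Matrix.star_eq_conjTranspose, Matrix.conjTranspose_single, star_one,
      Matrix.single_mul_single_same, one_mul]
  refine ⟨z, fun M => ?_⟩
  conv_lhs => rw [Matrix.matrix_eq_sum_single M]
  simp only [map_sum]
  rw [Finset.sum_comm (γ := Fin n)]
  refine Eq.trans ?_ (Finset.sum_comm (s := Finset.univ) (t := Finset.univ)).symm
  rw [Finset.sum_comm]
  refine Finset.sum_congr rfl fun a _ => ?_
  rw [Finset.sum_comm]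
  refine Finset.sum_congr rfl fun b _ => ?_
  rw [show Matrix.single a b (M a b) = M a b • Matrix.single a b 1 by
    rw [Matrix.smul_single, smul_eq_mul, mul_one], map_smul, hz, Finset.smul_sum]

omit [PartialOrder A] [StarOrderedRing A] in
/-- The quadratic form of a scalar Gram kernel pushed through rows is a sum of squares. -/
theorem kraus_form {κ ρ : Type*} [Fintype κ] [Fintype ρ] {n : ℕ}
    {ψ : Matrix (Fin n) (Fin n) ℂ →ₗ[ℂ] A} {z : Fin n → Fin n → A}
    (hz : ∀ M, ψ M = ∑ l, ∑ a, ∑ b, M a b • (star (z l a) * z l b))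
    (Z : ρ → κ × Fin n → ℂ) (b : κ → A) :
    ∑ x, ∑ y, star (b x) *
        ψ (Matrix.of fun a a' => ∑ w, star (Z w (x, a)) * Z w (y, a')) * b y =
      ∑ wl : ρ × Fin n, star (∑ x, (∑ a, Z wl.1 (x, a) • z wl.2 a) * b x) *
        (∑ x, (∑ a, Z wl.1 (x, a) • z wl.2 a) * b x) := by
  have key : ∀ x y, ψ (Matrix.of fun a a' => ∑ w, star (Z w (x, a)) * Z w (y, a')) =
      ∑ wl : ρ × Fin n,
        star (∑ a, Z wl.1 (x, a) • z wl.2 a) * (∑ a, Z wl.1 (y, a) • z wl.2 a) := by
    intro x y
    have e1 : ∀ w l, star (∑ a, Z w (x, a) • z l a) * (∑ a, Z w (y, a) • z l a) =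
        ∑ a, ∑ a', (star (Z w (x, a)) * Z w (y, a')) • (star (z l a) * z l a') := by
      intro w l
      simp only [star_sum, star_smul, Finset.sum_mul_sum, smul_mul_smul_comm]
    rw [hz, Fintype.sum_prod_type, Finset.sum_comm (s := (Finset.univ : Finset ρ))]
    refine Finset.sum_congr rfl fun l _ => ?_
    simp only [e1, Matrix.of_apply, Finset.sum_smul]
    rw [Finset.sum_comm (s := (Finset.univ : Finset ρ))]
    exact Finset.sum_congr rfl fun a _ => Finset.sum_comm
  have e2 : ∀ wl : ρ × Fin n, star (∑ x, (∑ a, Z wl.1 (x, a) • z wl.2 a) * b x) *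
      (∑ x, (∑ a, Z wl.1 (x, a) • z wl.2 a) * b x) = ∑ x, ∑ y, star (b x) *
        (star (∑ a, Z wl.1 (x, a) • z wl.2 a) * (∑ a, Z wl.1 (y, a) • z wl.2 a)) * b y := by
    intro wl
    rw [star_sum, Finset.sum_mul_sum]
    refine Finset.sum_congr rfl fun x _ => Finset.sum_congr rfl fun y _ => ?_
    rw [star_mul]
    simp only [mul_assoc]
  rw [Finset.sum_congr rfl fun wl _ => e2 wl,
    Finset.sum_comm (s := (Finset.univ : Finset (ρ × Fin n)))]
  refine Finset.sum_congr rfl fun x _ => ?_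
  rw [Finset.sum_comm (s := (Finset.univ : Finset (ρ × Fin n)))]
  refine Finset.sum_congr rfl fun y _ => ?_
  rw [key, Finset.mul_sum, Finset.sum_mul]

/-- Cross terms are bounded below by squares. -/
theorem cross_lower {e x y : A} {s : ℝ} (he : ‖e‖ ≤ s) :
    -(s • (star x * x + star y * y)) ≤ star x * e * y + star y * star e * x := by
  have hs : 0 ≤ s := (norm_nonneg e).trans he
  rcases hs.eq_or_lt with rfl | hs'
  · simp [norm_le_zero_iff.1 he]
  have hee : star e * e ≤ algebraMap ℝ A (s * s) := by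
    refine ((IsSelfAdjoint.star_mul_self e).le_algebraMap_norm_self).trans (algebraMap_mono A ?_)
    rw [CStarRing.norm_star_mul_self]
    exact mul_le_mul he he (norm_nonneg _) hs
  have hz := star_mul_self_nonneg (Real.sqrt s • x + (Real.sqrt s)⁻¹ • (e * y))
  have hy : star y * (star e * e) * y ≤ (s * s) • (star y * y) := by
    refine (star_left_conjugate_le_conjugate hee y).trans (le_of_eq ?_)
    rw [Algebra.algebraMap_eq_smul_one, mul_smul_comm, smul_mul_assoc, mul_one]
  have hsq : Real.sqrt s * Real.sqrt s = s := Real.mul_self_sqrt hs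
  have hexp : star (Real.sqrt s • x + (Real.sqrt s)⁻¹ • (e * y)) *
      (Real.sqrt s • x + (Real.sqrt s)⁻¹ • (e * y)) =
      s • (star x * x) + (star x * e * y + star y * star e * x) +
        s⁻¹ • (star y * (star e * e) * y) := by
    simp only [star_add, star_smul, star_trivial, star_mul, add_mul, mul_add, smul_mul_assoc,
      mul_smul_comm, mul_assoc]
    simp only [smul_add, smul_smul, hsq, ← mul_inv,
      inv_mul_cancel₀ (Real.sqrt_ne_zero'.2 hs'), mul_inv_cancel₀ (Real.sqrt_ne_zero'.2 hs'),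
      one_smul]
    abel
  have hy' : s⁻¹ • (star y * (star e * e) * y) ≤ s • (star y * y) := by
    refine (smul_le_smul_of_nonneg_left hy (inv_nonneg.2 hs)).trans (le_of_eq ?_)
    rw [smul_smul, ← mul_assoc, inv_mul_cancel₀ hs'.ne', one_mul]
  rw [hexp] at hz
  rw [neg_le_iff_add_nonneg, smul_add]
  refine hz.trans (le_of_le_of_eq (add_le_add le_rfl hy') ?_)
  abel

/-- A kernel with small row and column sums has a small self-adjoint form. -/
theorem neg_le_form {κ : Type*} [Fintype κ] (E : κ → κ → A) {R : ℝ}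
    (hrow : ∀ x, ∑ y, ‖E x y‖ ≤ R) (hcol : ∀ y, ∑ x, ‖E x y‖ ≤ R) (b : κ → A)
    (hsa : IsSelfAdjoint (∑ x, ∑ y, star (b x) * E x y * b y)) :
    -(R • ∑ x, star (b x) * b x) ≤ ∑ x, ∑ y, star (b x) * E x y * b y := by
  set q := ∑ x, ∑ y, star (b x) * E x y * b y with hq
  have h1 : ∑ x, ∑ y, -(‖E x y‖ • (star (b x) * b x + star (b y) * b y)) ≤ q + star q := by
    have : q + star q =
        ∑ x, ∑ y, (star (b x) * E x y * b y + star (b y) * star (E x y) * b x) := by
      simp only [hq, star_sum, star_mul, star_star, Finset.sum_add_distrib, mul_assoc]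
    rw [this]
    exact Finset.sum_le_sum fun x _ => Finset.sum_le_sum fun y _ => cross_lower le_rfl
  have h2 : -((2 * R) • ∑ x, star (b x) * b x) ≤
      ∑ x, ∑ y, -(‖E x y‖ • (star (b x) * b x + star (b y) * b y)) := by
    simp only [Finset.sum_neg_distrib, smul_add, Finset.sum_add_distrib, neg_le_neg_iff]
    rw [Finset.sum_comm (f := fun x y => ‖E x y‖ • (star (b y) * b y))]
    simp only [← Finset.sum_smul]
    rw [two_mul, add_smul, Finset.smul_sum]
    exact add_le_add
      (Finset.sum_le_sum fun x _ => smul_le_smul_of_nonneg_right (hrow x) (star_mul_self_nonneg _))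
      (Finset.sum_le_sum fun x _ => smul_le_smul_of_nonneg_right (hcol x) (star_mul_self_nonneg _))
  have h3 := h2.trans h1
  rw [hsa.star_eq, mul_smul, ← smul_neg, ← two_smul ℝ q] at h3
  exact (smul_le_smul_iff_of_pos_left (by norm_num : (0 : ℝ) < 2)).1 h3

end Vale.Agent.P095.Compare
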