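import Vale.Agent.P095.Compare.Specs
import Vale.Agent.P095.Compare.Forms
import Vale.Agent.P101.Cuntz.Lemmas

/-!
# P095 comparison: nuclearity turns small traces into a small number of rows

The free bound is pushed through completely positive maps into the finite model and back, giving
`p * N` copies of the cut-off below `2 * N` rows.
-/

noncomputable section

namespace Vale.Agent.P095.Compare

open Vale.Agent.P095.Gamma Vale.Agent.P095.Full Vale.Agent Filter Topology

open scoped ComplexOrder

universe u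

variable {A : Type u} [CStarAlgebra A] [PartialOrder A] [StarOrderedRing A]

/-- The row `∑ x i ⊗ π (gen c i)` applied to a vector. -/
def rowApply {p n : ℕ} {G : Type*} [Group G] [Fintype G] [DecidableEq G] (π : Free p n →* G)
    (x : Fin n → A) (b : Fin p × G → A) (g : G) : A :=
  ∑ u, (∑ i, if π (gen u.1 i) * u.2 = g then x i else 0) * b u

omit [PartialOrder A] [StarOrderedRing A] in
/-- The kernel of the free coefficients in a quotient. -/
theorem quotKernel_freeCoef {p n : ℕ} {G : Type*} [Group G] [DecidableEq G] (π : Free p n →* G)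
    (x : Fin n → A) (a : A) (e : ℝ) (u v : Fin p × G) :
    coefKernel (freeSupport p n) (freeCoef x a e) π u v =
      (∑ i, ∑ j, if π (gen u.1 i) * u.2 = π (gen v.1 j) * v.2 then star (x i) * x j else 0) +
        if u = v then algebraMap ℝ A e - a else 0 := by
  have hmem : ∀ i j, (gen u.1 i)⁻¹ * gen v.1 j ∈ freeSupport p n := fun i j =>
    Finset.mem_insert_of_mem (Finset.mem_image.2 ⟨((u.1, i), (v.1, j)), Finset.mem_univ _, rfl⟩)
  simp only [coefKernel, freeCoef, ite_add_zero, Finset.sum_add_distrib]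
  congr 1
  · have e1 : ∀ z : Free p n, (if π z = u.2 * v.2⁻¹ then
        ∑ i, ∑ j, (if z = (gen u.1 i)⁻¹ * gen v.1 j then star (x i) * x j else 0) else 0) =
        ∑ i, ∑ j, if z = (gen u.1 i)⁻¹ * gen v.1 j then
          (if π z = u.2 * v.2⁻¹ then star (x i) * x j else 0) else 0 := by
      intro z
      split_ifs with h
      · rfl
      · simp
    rw [Finset.sum_congr rfl fun z _ => e1 z, Finset.sum_comm]
    refine Finset.sum_congr rfl fun i _ => ?_
    rw [Finset.sum_comm]
    refine Finset.sum_congr rfl fun j _ => ?_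
    rw [Finset.sum_ite_eq' (freeSupport p n), if_pos (hmem i j)]
    refine if_congr ?_ rfl rfl
    rw [map_mul, map_inv, inv_mul_eq_iff_eq_mul, ← mul_assoc, eq_mul_inv_iff_mul_eq]
    exact eq_comm
  · have e1 : ∀ z : Free p n,
        (if π z = u.2 * v.2⁻¹ then (if u.1 = v.1 ∧ z = 1 then algebraMap ℝ A e - a else 0) else 0) =
        if z = 1 then (if u = v then algebraMap ℝ A e - a else 0) else 0 := by
      intro z
      by_cases hz : z = 1
      · subst hz
        by_cases h1 : u.1 = v.1 <;> by_cases h2 : u.2 = v.2 <;>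
          simp [h1, h2, Prod.ext_iff, eq_comm, mul_inv_eq_one]
      · simp [hz]
    rw [Finset.sum_congr rfl fun z _ => e1 z, Finset.sum_ite_eq',
      if_pos (show (1 : Free p n) ∈ freeSupport p n from Finset.mem_insert_self _ _)]

omit [PartialOrder A] [StarOrderedRing A] in
/-- The form of the free kernel in a finite quotient. -/
theorem quotForm_freeCoef {p n : ℕ} {G : Type*} [Group G] [Fintype G] [DecidableEq G]
    (π : Free p n →* G) (x : Fin n → A) (a : A) (e : ℝ) (b : Fin p × G → A) :
    ∑ u, ∑ v, star (b u) * coefKernel (freeSupport p n) (freeCoef x a e) π u v * b v =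
      ∑ g, star (rowApply π x b g) * rowApply π x b g +
        (e • ∑ u, star (b u) * b u - ∑ u, star (b u) * a * b u) := by
  simp only [quotKernel_freeCoef, mul_add, add_mul, Finset.sum_add_distrib]
  congr 1
  · simp only [rowApply, star_sum, star_mul, apply_ite star, star_zero]
    simp only [Finset.sum_mul, Finset.mul_sum, mul_ite, ite_mul, mul_zero, zero_mul, mul_assoc]
    symm
    rw [Finset.sum_comm]
    calc _ = ∑ v : Fin p × G, ∑ j : Fin n, ∑ u : Fin p × G, ∑ i : Fin n,
          if π (gen u.1 i) * u.2 = π (gen v.1 j) * v.2 then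
            star (b u) * (star (x i) * (x j * b v)) else 0 := by
          refine Finset.sum_congr rfl fun v _ => ?_
          rw [Finset.sum_comm]
          refine Finset.sum_congr rfl fun j _ => ?_
          rw [Finset.sum_ite_eq, if_pos (Finset.mem_univ _)]
      _ = _ := by
          refine Eq.trans ?_ Finset.sum_comm
          refine Finset.sum_congr rfl fun v _ => ?_
          rw [Finset.sum_comm]
          refine Finset.sum_congr rfl fun u _ => ?_
          rw [Finset.sum_comm]
  · simp only [mul_ite, ite_mul, mul_zero, zero_mul, Finset.sum_ite_eq, Finset.mem_univ, if_true,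
      mul_sub, sub_mul, Finset.sum_sub_distrib, Algebra.algebraMap_eq_smul_one, mul_smul_comm,
      smul_mul_assoc, mul_one, Finset.smul_sum]

/-- A diagonal matrix. -/
def diagMat {κ : Type*} [DecidableEq κ] (f : κ → A) : CStarMatrix κ κ A :=
  CStarMatrix.ofMatrix (Matrix.diagonal f)

omit [PartialOrder A] [StarOrderedRing A] in
theorem mul_diagMat_apply {κ : Type*} [Fintype κ] [DecidableEq κ] (X : CStarMatrix κ κ A)
    (f : κ → A) (u v : κ) : (X * diagMat f) u v = X u v * f v :=
  Matrix.mul_diagonal f (CStarMatrix.ofMatrix.symm X) u v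

omit [PartialOrder A] [StarOrderedRing A] in
theorem diagMat_apply {κ : Type*} [DecidableEq κ] (f : κ → A) (u v : κ) :
    diagMat f u v = if u = v then f u else 0 :=
  Matrix.diagonal_apply f u v

omit [PartialOrder A] [StarOrderedRing A] in
theorem star_mul_self_apply {κ : Type*} [Fintype κ] (X : CStarMatrix κ κ A) (u v : κ) :
    (star X * X) u v = ∑ w, star (X w u) * X w v :=
  CStarMatrix.mul_apply

/-- If `a` lies below `δ` and few rows then a cut of `a` is exactly a sum over few rows, and left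
units of the given rows are left units of the new ones. -/
theorem exists_rows {κ ρ : Type*} [Fintype κ] [DecidableEq κ] [Fintype ρ] {a : A} (ha : 0 ≤ a)
    {δ ε : ℝ} (hδε : δ < ε) (W : ρ → κ → A)
    (h : ∀ b : κ → A, ∑ u, star (b u) * a * b u ≤
      δ • ∑ u, star (b u) * b u + ∑ q, star (∑ u, W q u * b u) * (∑ u, W q u * b u))
    (ι : ρ ↪ κ) :
    ∃ Y : ρ → κ → A, (∀ p : A, (∀ q u, p * W q u = W q u) → ∀ q u, p * Y q u = Y q u) ∧
      ∀ u v, ∑ q, star (Y q u) * Y q v = if u = v then P101.Cuntz.cut a ε else 0 := by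
  have has : IsSelfAdjoint a := IsSelfAdjoint.of_nonneg ha
  let K : κ → κ → A := fun u v =>
    (∑ q, star (W q u) * W q v) + if u = v then algebraMap ℝ A δ - a else 0
  obtain ⟨Z, hZ⟩ := exists_gram K fun b => by
    have e1 : ∑ u, ∑ v, star (b u) * K u v * b v =
        (∑ q, star (∑ u, W q u * b u) * (∑ u, W q u * b u)) +
          (δ • ∑ u, star (b u) * b u - ∑ u, star (b u) * a * b u) := by
      simp only [K, mul_add, add_mul, Finset.sum_add_distrib]
      congr 1
      · simp only [star_sum, star_mul, Finset.mul_sum, Finset.sum_mul, mul_assoc]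
        symm
        rw [Finset.sum_comm]
        refine Eq.trans ?_ Finset.sum_comm
        refine Finset.sum_congr rfl fun u _ => ?_
        rw [Finset.sum_comm]
      · simp only [mul_ite, ite_mul, mul_zero, zero_mul, Finset.sum_ite_eq, Finset.mem_univ,
          if_true, mul_sub, sub_mul, Finset.sum_sub_distrib, Algebra.algebraMap_eq_smul_one,
          mul_smul_comm, smul_mul_assoc, mul_one, Finset.smul_sum]
    rw [e1, add_sub, sub_nonneg, add_comm]
    exact h b
  let e : ℝ → ℝ := fun t => √(max (t - ε) 0 / (max t ε - δ))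
  have hec : Continuous e := by
    refine Real.continuous_sqrt.comp (Continuous.div (by fun_prop) (by fun_prop) fun t => ?_)
    have := le_max_right t ε
    linarith
  set E := cfc e a with hE
  have hEst : star E = E := P101.Cuntz.star_cfc_real e a
  have hEaE : E * (a - algebraMap ℝ A δ) * E = P101.Cuntz.cut a ε := by
    have h1 : a - algebraMap ℝ A δ = cfc (fun t => t - δ) a := by
      rw [cfc_sub (fun t => t) (fun _ => δ) a continuousOn_id continuousOn_const,
        cfc_id' ℝ a has, cfc_const δ a has]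
    rw [h1, hE, ← cfc_mul e (fun t => t - δ) a hec.continuousOn (by fun_prop),
      ← cfc_mul (fun t => e t * (t - δ)) e a (hec.continuousOn.mul (by fun_prop)) hec.continuousOn,
      P101.Cuntz.cut]
    refine cfc_congr fun t _ => ?_
    simp only [e]
    rcases le_total t ε with ht | ht
    · rw [max_eq_right (show t - ε ≤ 0 by linarith)]
      simp
    · rw [max_eq_left (show 0 ≤ t - ε by linarith), max_eq_left ht, mul_comm (√_) (t - δ),
        mul_assoc, Real.mul_self_sqrt (div_nonneg (by linarith) (by linarith)),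
        mul_div_cancel₀ _ (by linarith : t - δ ≠ 0)]
  obtain ⟨s, hs⟩ := CStarAlgebra.nonneg_iff_eq_star_mul_self.1 (P101.Cuntz.cut_nonneg a ε)
  let W' : CStarMatrix κ κ A := CStarMatrix.ofMatrix (Matrix.of (Function.extend ι W 0))
  have hout : ∀ z : κ, z ∉ Set.range ι → ∀ u, W' z u = 0 := fun z hz u => by
    show Function.extend ι W 0 z u = 0
    rw [Function.extend_apply' _ _ _ hz]
    rfl
  have hin : ∀ q u, W' (ι q) u = W q u := fun q u => by
    show Function.extend ι W 0 (ι q) u = _
    rw [ι.injective.extend_apply]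
  let z : CStarMatrix κ κ A := W' * diagMat fun _ => E
  let Z' : CStarMatrix κ κ A := CStarMatrix.ofMatrix (Matrix.of Z) * diagMat fun _ => E
  let p : CStarMatrix κ κ A := diagMat fun _ => P101.Cuntz.cut a ε
  have hpv : ∀ u v, p u v = if u = v then P101.Cuntz.cut a ε else 0 := fun u v =>
    diagMat_apply _ u v
  have hp : p = star (diagMat (A := A) fun _ : κ => s) * diagMat fun _ => s := by
    refine CStarMatrix.ext fun u v => ?_
    rw [star_mul_self_apply, hpv]
    simp only [diagMat_apply, apply_ite star, star_zero, ite_mul, zero_mul, mul_ite, mul_zero,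
      Finset.sum_ite_eq', Finset.mem_univ, if_true]
    by_cases huv : u = v
    · subst huv; simp [hs]
    · simp [huv, Ne.symm huv]
  have hsum : ∀ u v, ∑ w, star (W' w u) * W' w v = ∑ q, star (W q u) * W q v := fun u v =>
    (Fintype.sum_of_injective ι ι.injective _ _
      (fun w hw => by rw [hout w hw u, star_zero, zero_mul]) (fun q => by rw [hin, hin])).symm
  have hle : p ≤ star z * z := by
    rw [← sub_nonneg]
    have : star z * z - p = star Z' * Z' := by
      refine CStarMatrix.ext fun u v => ?_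
      rw [CStarMatrix.sub_apply, star_mul_self_apply, star_mul_self_apply, hpv]
      have hz : ∀ w u, z w u = W' w u * E := fun w u => mul_diagMat_apply _ _ _ _
      have hz' : ∀ w u, Z' w u = Z w u * E := fun w u => mul_diagMat_apply _ _ _ _
      simp only [hz, hz', star_mul, hEst]
      have e2 : ∀ X Y : κ → A, ∑ w, E * star (X w) * (Y w * E) = E * (∑ w, star (X w) * Y w) * E :=
        fun X Y => by simp only [Finset.mul_sum, Finset.sum_mul, mul_assoc]
      rw [e2, e2, hsum]
      show _ = E * (∑ w, star (Z w u) * Z w v) * E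
      rw [← hZ]
      simp only [K, mul_add, add_mul]
      by_cases huv : u = v
      · subst huv
        rw [if_pos rfl, if_pos rfl, ← hEaE]
        noncomm_ring
      · simp [huv]
    rw [this]
    exact star_mul_self_nonneg _
  obtain ⟨y, hy, w, hw⟩ := P101.Cuntz.exists_factor (hp ▸ star_mul_self_nonneg _) hle
  have hy0 : ∀ k : κ, k ∉ Set.range ι → ∀ u, y k u = 0 := by
    intro k hk u
    rw [← norm_le_zero_iff]
    refine le_of_tendsto_of_tendsto (tendsto_const_nhds (f := (atTop : Filter ℕ)))
      (tendsto_iff_norm_sub_tendsto_zero.1 hw) (Eventually.of_forall fun m => ?_)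
    have h0 : (z * w m) k u = 0 := by
      rw [CStarMatrix.mul_apply]
      refine Finset.sum_eq_zero fun l _ => ?_
      rw [show z k l = W' k l * E from mul_diagMat_apply _ _ _ _, hout k hk l, zero_mul, zero_mul]
    have h1 := CStarMatrix.norm_entry_le_norm (M := z * w m - y) (i := k) (j := u)
    rwa [CStarMatrix.sub_apply, h0, zero_sub, norm_neg] at h1
  refine ⟨fun q u => y (ι q) u, fun l hl q u => ?_, fun u v => ?_⟩
  · rw [← sub_eq_zero, ← norm_le_zero_iff]
    have h0 := (tendsto_iff_norm_sub_tendsto_zero.1 hw).const_mul (‖l‖ + 1)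
    rw [mul_zero] at h0
    refine le_of_tendsto_of_tendsto (tendsto_const_nhds (f := (atTop : Filter ℕ))) h0
      (Eventually.of_forall fun m => ?_)
    have h1 : l * (z * w m) (ι q) u = (z * w m) (ι q) u := by
      rw [CStarMatrix.mul_apply, Finset.mul_sum]
      refine Finset.sum_congr rfl fun j _ => ?_
      rw [show z (ι q) j = W' (ι q) j * E from mul_diagMat_apply _ _ _ _, hin, ← mul_assoc,
        ← mul_assoc, hl]
    have h2 := CStarMatrix.norm_entry_le_norm (M := z * w m - y) (i := ι q) (j := u)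
    rw [CStarMatrix.sub_apply] at h2
    set A₁ := (z * w m) (ι q) u
    show ‖l * y (ι q) u - y (ι q) u‖ ≤ _
    rw [show l * y (ι q) u - y (ι q) u = (A₁ - y (ι q) u) - l * (A₁ - y (ι q) u) by
      rw [mul_sub, h1]; abel]
    show _ ≤ (‖l‖ + 1) * ‖z * w m - y‖
    rw [add_mul, one_mul]
    refine (norm_sub_le _ _).trans (le_trans (add_le_add h2 ((norm_mul_le _ _).trans
      (mul_le_mul_of_nonneg_left h2 (norm_nonneg l)))) (le_of_eq (add_comm _ _)))
  have := congrArg (fun X : CStarMatrix κ κ A => X u v) hy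
  simp only [CStarMatrix.mul_apply, CStarMatrix.star_apply, p, diagMat_apply] at this
  rw [← this]
  exact Fintype.sum_of_injective ι ι.injective _ (fun w => star (y w u) * y w v)
    (fun w hw => by simp [hy0 w hw u]) fun _ => rfl

/-- Sums over a finite set rewritten over a product. -/
theorem sum_pad {α β M : Type*} [AddCommMonoid M] [DecidableEq β] [Fintype α] (W : Finset β)
    (emb : α → β) (hemb : Function.Injective emb) (hW : ∀ u ∈ W, ∃ x, emb x = u) (g : β → M) :
    ∑ x, (if emb x ∈ W then g (emb x) else 0) = ∑ u ∈ W, g u := by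
  rw [← Finset.sum_filter]
  refine Finset.sum_bij (fun x _ => emb x) (fun x hx => (Finset.mem_filter.1 hx).2)
    (fun x _ y _ h => hemb h) (fun u hu => ?_) fun _ _ => rfl
  obtain ⟨x, rfl⟩ := hW u hu
  exact ⟨x, Finset.mem_filter.2 ⟨Finset.mem_univ _, hu⟩, rfl⟩

/-- The compressed free kernel is a positive kernel. -/
theorem compressed_nonneg (hF : FreeStatement.{u}) {p n k : ℕ} {x : Fin n → A} {a : A} {d t : ℝ}
    (ha : 0 ≤ a) (han : ‖a‖ ≤ 1) (hd : 0 ≤ d) (hd1 : d ≤ 1) (ht : 0 ≤ t) (ht1 : t ≤ 1)
    (hx : ‖∑ i, star (x i) * x i - a‖ ≤ d) (hxx : ∑ i, x i * star (x i) ≤ algebraMap ℝ A t)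
    {φ : A →ₗ[ℂ] Matrix (Fin k) (Fin k) ℂ} (hφ : IsCPMap φ)
    (W : Finset ((Fin p × Fin k) × Free p n)) (v : (Fin p × Fin k) × Free p n → ℂ) :
    0 ≤ ∑ u ∈ W, ∑ u' ∈ W, star (v u) * coefKernel (freeSupport p n)
      (fun z c c' => φ (freeCoef x a (d + 4 * Real.sqrt ((p + 1) * t)) z c.1 c'.1) c.2 c'.2)
      (MonoidHom.id _) u u' * v u' := by
  classical
  let W3 : Finset (Fin p × Free p n) := W.image fun u => (u.1.1, u.2)
  let emb : W3 × Fin k → (Fin p × Fin k) × Free p n := fun y => ((y.1.1.1, y.2), y.1.1.2)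
  have hemb : Function.Injective emb := by
    rintro ⟨⟨⟨c, w⟩, _⟩, l⟩ ⟨⟨⟨c', w'⟩, _⟩, l'⟩ h
    simp only [emb, Prod.mk.injEq] at h
    obtain ⟨⟨rfl, rfl⟩, rfl⟩ := h
    rfl
  have hW : ∀ u ∈ W, ∃ y, emb y = u := fun u hu =>
    ⟨(⟨(u.1.1, u.2), Finset.mem_image_of_mem _ hu⟩, u.1.2), rfl⟩
  set e := d + 4 * Real.sqrt ((p + 1) * t)
  have := map_form_nonneg hφ
    (fun y y' : W3 => coefKernel (freeSupport p n) (freeCoef x a e) (MonoidHom.id _) y.1 y'.1)
    (fun b => by
      have h := hF A p n x a d t ha han hd hd1 ht ht1 hx hxx W3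
        fun y => if hy : y ∈ W3 then b ⟨y, hy⟩ else 0
      refine le_of_le_of_eq h ?_
      rw [← Finset.sum_coe_sort W3]
      refine Finset.sum_congr rfl fun y _ => ?_
      rw [← Finset.sum_coe_sort W3]
      exact Finset.sum_congr rfl fun y' _ => by simp [e])
    fun y => if emb y ∈ W then v (emb y) else 0
  refine le_of_le_of_eq this ?_
  rw [← sum_pad W emb hemb hW]
  refine Finset.sum_congr rfl fun y _ => ?_
  rw [← sum_pad W emb hemb hW]
  by_cases hy : emb y ∈ W
  · rw [if_pos hy, if_pos hy]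
    refine Finset.sum_congr rfl fun y' _ => ?_
    by_cases hy' : emb y' ∈ W
    · rw [if_pos hy', if_pos hy']
      simp only [coefKernel, map_sum, Matrix.sum_apply, apply_ite φ, map_zero, emb]
      congr 2
      exact Finset.sum_congr rfl fun z _ => by split_ifs <;> rfl
    · rw [if_neg hy', if_neg hy', mul_zero]
  · simp [hy]

theorem amplify_of (hT : TraceStatement.{u}) (hF : FreeStatement.{u}) (hM : ModelStatement) :
    AmplifyStatement.{u} := by
  intro A _ hnuc p hp ε hε
  let _ : PartialOrder A := CStarAlgebra.spectralOrder A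
  let _ : StarOrderedRing A := CStarAlgebra.spectralOrderedRing A
  set t : ℝ := min (min (1 / 2) (ε / 8)) (ε ^ 2 / (2048 * (p + 1))) with ht_def
  have ht : 0 < t := lt_min (lt_min (by norm_num) (by positivity)) (by positivity)
  have ht2 : t ≤ 1 / 2 := (min_le_left _ _).trans (min_le_left _ _)
  have ht8 : t ≤ ε / 8 := (min_le_left _ _).trans (min_le_right _ _)
  have htsq : 4 * Real.sqrt ((p + 1) * (t + t)) ≤ ε / 8 := by
    have h1 : t ≤ ε ^ 2 / (2048 * (p + 1)) := min_le_right _ _
    rw [le_div_iff₀ (by positivity)] at h1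
    have h2 : ((p : ℝ) + 1) * (t + t) ≤ (ε / 32) ^ 2 := by nlinarith
    have h3 := Real.sqrt_le_sqrt h2
    rw [Real.sqrt_sq (by positivity)] at h3
    linarith
  refine ⟨t, ht, fun a ha hτ => ?_⟩
  obtain ⟨⟨a₀, ha0⟩, han⟩ := ha
  have hapos : 0 ≤ a := ha0 ▸ star_mul_self_nonneg a₀
  obtain ⟨n, x, hx, hxx⟩ := hT A a hapos t ht.le hτ t ht
  set e := t + 4 * Real.sqrt ((p + 1) * (t + t)) with he
  set S := freeSupport p n
  classical
  set err : ℝ := ε / 8 / ((S.card * p : ℕ) + 1) with herr
  have herr0 : 0 < err := by positivity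
  obtain ⟨k, φ, ψ, hφ, hψ, happ⟩ := hnuc
    ((S ×ˢ (Finset.univ : Finset (Fin p × Fin p))).image
      fun q => freeCoef x a e q.1 q.2.1 q.2.2) err herr0
  have happ' : ∀ z ∈ S, ∀ c c', ‖ψ (φ (freeCoef x a e z c c')) - freeCoef x a e z c c'‖ ≤ err :=
    fun z hz c c' => happ _ (Finset.mem_image.2
      ⟨(z, (c, c')), Finset.mem_product.2 ⟨hz, Finset.mem_univ _⟩, rfl⟩)
  obtain ⟨kz, hkz⟩ := exists_kraus hψ
  set γ : ℝ := ε / 8 / (‖ψ 1‖ + 1) with hγ
  have hγ0 : 0 < γ := by positivity
  set C : Free p n → Fin p × Fin k → Fin p × Fin k → ℂ :=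
    fun z c c' => φ (freeCoef x a e z c.1 c'.1) c.2 c'.2 with hC
  obtain ⟨G, _, _, _, π, r, v, hr, hpos⟩ := hM (Fin p × Fin k) (Fin p × Fin n) S C
    (fun W w => compressed_nonneg hF hapos han ht.le (by linarith) (by linarith) (by linarith) hx
      hxx hφ W w)
    γ (1 / ((k : ℝ) + 1)) hγ0 (by positivity)
  obtain ⟨Z, hZ⟩ := exists_gram (fun y y' : (Fin p × Fin k) × G =>
    coefKernel S C π y y' + (if y = y' then (γ : ℂ) else 0) + ∑ l, v l y * star (v l y')) hpos
  let RG : Fin p × G → Fin p × G → A := fun y y' => coefKernel S (freeCoef x a e) π y y'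
  let E : Fin p × G → Fin p × G → A := fun y y' =>
    RG y y' - ψ (φ (RG y y')) - if y = y' then (γ : ℂ) • ψ 1 else 0
  let Zs : (Fin p × Fin k) × G → (Fin p × G) × Fin k → ℂ := fun w y => Z w ((y.1.1, y.2), y.1.2)
  let Zv : Fin r → (Fin p × G) × Fin k → ℂ := fun l y => star (v l ((y.1.1, y.2), y.1.2))
  have hsplit : ∀ y y', RG y y' +
      ψ (Matrix.of fun i j => ∑ l, star (Zv l (y, i)) * Zv l (y', j)) =
      E y y' + ψ (Matrix.of fun i j => ∑ w, star (Zs w (y, i)) * Zs w (y', j)) := by
    intro y y'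
    have e1 : (Matrix.of fun i j => ∑ w, star (Zs w (y, i)) * Zs w (y', j)) =
        φ (RG y y') + (if y = y' then (γ : ℂ) • (1 : Matrix (Fin k) (Fin k) ℂ) else 0) +
          Matrix.of fun i j => ∑ l, star (Zv l (y, i)) * Zv l (y', j) := by
      ext i j
      simp only [Matrix.of_apply, Matrix.add_apply, Zs, Zv, star_star, ← hZ]
      congr 1
      congr 1
      · simp only [coefKernel, RG, map_sum, Matrix.sum_apply, hC]
        exact Finset.sum_congr rfl fun z _ => by split_ifs <;> simp
      · by_cases hy : y = y'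
        · subst hy
          by_cases hij : i = j
          · subst hij; simp
          · simp [hij]
        · have : ((y.1, i), y.2) ≠ ((y'.1, j), y'.2) := by
            intro h
            simp only [Prod.mk.injEq] at h
            exact hy (Prod.ext h.1.1 h.2)
          simp [hy, this]
    rw [e1, map_add, map_add, apply_ite ψ, map_smul, map_zero]
    simp only [E]
    abel
  have hrow : ∀ y y' : Fin p × G, ‖E y y'‖ ≤
      (∑ z ∈ S, if π z = y.2 * y'.2⁻¹ then err else 0) + if y = y' then γ * ‖ψ 1‖ else 0 := by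
    intro y y'
    refine (norm_sub_le _ _).trans (add_le_add ?_ ?_)
    · simp only [RG, coefKernel, map_sum, ← Finset.sum_sub_distrib]
      refine (norm_sum_le _ _).trans (Finset.sum_le_sum fun z hz => ?_)
      split_ifs
      · rw [norm_sub_rev]; exact happ' z hz _ _
      · simp
    · split_ifs
      · simp [norm_smul, abs_of_pos hγ0]
      · simp
  set R : ℝ := (S.card * p : ℕ) * err + γ * ‖ψ 1‖ with hR
  have hR4 : R ≤ ε / 4 := by
    have h1 : ((S.card * p : ℕ) : ℝ) * err ≤ ε / 8 := by
      rw [herr, mul_div_assoc', div_le_iff₀ (by positivity)]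
      nlinarith
    have h2 : γ * ‖ψ 1‖ ≤ ε / 8 := by
      rw [hγ, div_mul_eq_mul_div, div_le_iff₀ (by positivity)]
      nlinarith [norm_nonneg (ψ 1)]
    linarith
  have hsum1 : ∀ y : Fin p × G, ∑ y', ‖E y y'‖ ≤ R := by
    intro y
    refine (Finset.sum_le_sum fun y' _ => hrow y y').trans (le_of_eq ?_)
    rw [Finset.sum_add_distrib, Finset.sum_ite_eq, if_pos (Finset.mem_univ _), Finset.sum_comm, hR]
    congr 1
    have : ∀ z, ∑ y' : Fin p × G, (if π z = y.2 * y'.2⁻¹ then err else 0) = p * err := by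
      intro z
      have : ∀ g : G, π z = y.2 * g⁻¹ ↔ g = (π z)⁻¹ * y.2 := fun g => by
        rw [eq_mul_inv_iff_mul_eq, eq_inv_mul_iff_mul_eq]
      simp [Fintype.sum_prod_type, this]
    simp [this]; ring
  have hsum2 : ∀ y' : Fin p × G, ∑ y, ‖E y y'‖ ≤ R := by
    intro y'
    refine (Finset.sum_le_sum fun y _ => hrow y y').trans (le_of_eq ?_)
    rw [Finset.sum_add_distrib, Finset.sum_ite_eq', if_pos (Finset.mem_univ _), Finset.sum_comm, hR]
    congr 1
    have : ∀ z, ∑ y : Fin p × G, (if π z = y.2 * y'.2⁻¹ then err else 0) = p * err := by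
      intro z
      have : ∀ g : G, π z = g * y'.2⁻¹ ↔ g = π z * y'.2 := fun g => by
        rw [eq_mul_inv_iff_mul_eq, eq_comm]
      simp [Fintype.sum_prod_type, this]
    simp [this]; ring
  let Wv : Fin r × Fin k → Fin p × G → A := fun ll y => ∑ i, Zv ll.1 (y, i) • kz ll.2 i
  let W : G ⊕ (Fin r × Fin k) → Fin p × G → A :=
    Sum.elim (fun g y => ∑ i, if π (gen y.1 i) * y.2 = g then x i else 0) Wv
  have hmain : ∀ b : Fin p × G → A, ∑ y, star (b y) * a * b y ≤
      (e + R) • ∑ y, star (b y) * b y + ∑ q, star (∑ y, W q y * b y) * (∑ y, W q y * b y) := by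
    intro b
    have f1 := quotForm_freeCoef π x a e b
    have f2 := kraus_form hkz Zv b
    have f3 := kraus_form hkz Zs b
    have f4 : ∑ y, ∑ y', star (b y) * RG y y' * b y' +
        ∑ y, ∑ y', star (b y) *
          ψ (Matrix.of fun i j => ∑ l, star (Zv l (y, i)) * Zv l (y', j)) * b y' =
        ∑ y, ∑ y', star (b y) * E y y' * b y' +
        ∑ y, ∑ y', star (b y) *
          ψ (Matrix.of fun i j => ∑ w, star (Zs w (y, i)) * Zs w (y', j)) * b y' := by
      simp only [← Finset.sum_add_distrib, ← add_mul, ← mul_add, hsplit]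
    rw [f1, f2, f3] at f4
    have hq : ∑ q, star (∑ y, W q y * b y) * (∑ y, W q y * b y) =
        ∑ g, star (rowApply π x b g) * rowApply π x b g +
        ∑ ll : Fin r × Fin k, star (∑ y, Wv ll y * b y) * (∑ y, Wv ll y * b y) := by
      rw [Fintype.sum_sum_type]
      rfl
    have hsa : IsSelfAdjoint (∑ y, ∑ y', star (b y) * E y y' * b y') := by
      have h1 : ∀ {ι : Type} (s : Finset ι) (f : ι → A),
          IsSelfAdjoint (∑ i ∈ s, star (f i) * f i) :=
        fun s f => isSelfAdjoint_sum s fun i _ => IsSelfAdjoint.star_mul_self _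
      have h2 : IsSelfAdjoint (∑ y, star (b y) * a * b y) :=
        isSelfAdjoint_sum _ fun y _ => by
          simpa [star_star] using (IsSelfAdjoint.of_nonneg hapos).conjugate (star (b y))
      have e5 := congrArg (fun X => X - ∑ wl : ((Fin p × Fin k) × G) × Fin k,
        star (∑ y, (∑ i, Zs wl.1 (y, i) • kz wl.2 i) * b y) *
          (∑ y, (∑ i, Zs wl.1 (y, i) • kz wl.2 i) * b y)) f4
      simp only [add_sub_cancel_right] at e5
      rw [← e5]
      exact (((h1 _ _).add (((IsSelfAdjoint.all e).smul (h1 _ _)).sub h2)).add (h1 _ _)).sub (h1 _ _)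
    have hlow := neg_le_form E hsum1 hsum2 b hsa
    have h3 : 0 ≤ ∑ wl : ((Fin p × Fin k) × G) × Fin k,
        star (∑ y, (∑ i, Zs wl.1 (y, i) • kz wl.2 i) * b y) *
          (∑ y, (∑ i, Zs wl.1 (y, i) • kz wl.2 i) * b y) :=
      Finset.sum_nonneg fun _ _ => star_mul_self_nonneg _
    have key := add_le_add hlow h3
    rw [← f4, add_zero, neg_le_iff_add_nonneg] at key
    rw [hq, ← sub_nonneg]
    refine le_of_le_of_eq key ?_
    simp only [Wv, add_smul]
    abel
  have hG : 0 < Fintype.card G := Fintype.card_pos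
  have hcard : r * k ≤ Fintype.card G := by
    have h1 : (r : ℝ) * k ≤ Fintype.card G := by
      rw [one_div, ← div_eq_inv_mul, le_div_iff₀ (by positivity)] at hr
      nlinarith [Nat.cast_nonneg (α := ℝ) r]
    exact_mod_cast h1
  set N := Fintype.card G
  have hc2 : Fintype.card (G ⊕ (Fin r × Fin k)) + (N - r * k) = 2 * N := by
    simp only [Fintype.card_sum, Fintype.card_prod, Fintype.card_fin]
    omega
  let W2 : (G ⊕ (Fin r × Fin k)) ⊕ Fin (N - r * k) → Fin p × G → A := Sum.elim W fun _ _ => 0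
  let eQ : (G ⊕ (Fin r × Fin k)) ⊕ Fin (N - r * k) ≃ Fin (2 * N) :=
    (Fintype.equivFinOfCardEq (by rw [Fintype.card_sum, Fintype.card_fin]; exact hc2))
  let eP : Fin (p * N) ≃ Fin p × G :=
    finProdFinEquiv.symm.trans (Equiv.prodCongr (Equiv.refl _) (Fintype.equivFin G).symm)
  obtain ⟨ι⟩ : Nonempty ((G ⊕ (Fin r × Fin k)) ⊕ Fin (N - r * k) ↪ Fin p × G) := by
    rw [Function.Embedding.nonempty_iff_card_le, Fintype.card_congr eQ, Fintype.card_fin,
      Fintype.card_prod, Fintype.card_fin]
    exact Nat.mul_le_mul_right N hp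
  obtain ⟨Y, -, hY⟩ := exists_rows (δ := e + R) (ε := ε) hapos (by linarith) W2
    (fun b => by
      refine (hmain b).trans (le_of_eq ?_)
      congr 1
      simp [W2]) ι
  refine ⟨N, fun q c => Y (eQ.symm q) (eP c), hG, fun c c' => ?_⟩
  rw [Equiv.sum_comp eQ.symm fun q => star (Y q (eP c)) * Y q (eP c'), hY]
  simp only [eP.apply_eq_iff_eq]
  rfl

end Vale.Agent.P095.Compare
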