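import Vale.Agent.P095.Full.Defs

/-!
# P095: comparison without quasitraces, definitions

See notes/P095_comparison_helper8.md.
-/

noncomputable section

namespace Vale.Agent.P095.Compare

open Vale.Agent.P095.Gamma Vale.Agent.P095.Full

universe u v w

variable {H : Type v} [Group H] {ι : Type w} {M : Type*} [AddCommMonoid M]

/-- The kernel on `ι × H` of the finitely supported coefficients `C`, pushed along `π`. -/
def coefKernel {K : Type*} [Group K] [DecidableEq H] (S : Finset K) (C : K → ι → ι → M)
    (π : K →* H) (u u' : ι × H) : M :=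
  ∑ z ∈ S, if π z = u.2 * u'.2⁻¹ then C z u.1 u'.1 else 0

/-- Free generators indexed by columns and summands. -/
abbrev Free (p n : ℕ) := FreeGroup (Fin p × Fin n)

/-- The generator for column `c` and summand `i`. -/
def gen {p n : ℕ} (c : Fin p) (i : Fin n) : Free p n := FreeGroup.of (c, i)

/-- The words occurring in the free kernel. -/
def freeSupport (p n : ℕ) : Finset (Free p n) :=
  insert 1 ((Finset.univ : Finset ((Fin p × Fin n) × (Fin p × Fin n))).image fun q =>
    (gen q.1.1 q.1.2)⁻¹ * gen q.2.1 q.2.2)

variable {A : Type u} [CStarAlgebra A]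

/-- The coefficients of `S* S - a ⊗ 1 + e` for the row `S = ∑ x i ⊗ gen c i`. -/
def freeCoef {p n : ℕ} (x : Fin n → A) (a : A) (e : ℝ) (z : Free p n) (c c' : Fin p) : A :=
  (∑ i, ∑ j, if z = (gen c i)⁻¹ * gen c' j then star (x i) * x j else 0) +
    if c = c' ∧ z = 1 then algebraMap ℝ A e - a else 0

end Vale.Agent.P095.Compare
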