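import Vale.Agent.P095.Compare.Specs

/-!
# P095: comparison without quasitraces, the free norm bound

The kernel form is `∑ᵥ (S b)(v)* (S b)(v) + ∑ b* (e - a) b`.  The summand of `(S b)(v)` entering
through the first letter of `v` is unique, and the others form a row with `∑ x x* ≤ p t`.
-/

noncomputable section

namespace Vale.Agent.P095.Compare

open Vale.Agent.P095.Gamma Vale.Agent.P095.Full

universe u

variable {A : Type u} [CStarAlgebra A] [PartialOrder A] [StarOrderedRing A]

/-- A row with `∑ x x* ≤ T` is bounded by `√T`. -/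
theorem star_row_le {κ : Type*} (F : Finset κ) (x b : κ → A) {T : ℝ} (hT : 0 < T)
    (hx : ∑ k ∈ F, x k * star (x k) ≤ algebraMap ℝ A T) :
    star (∑ k ∈ F, x k * b k) * (∑ k ∈ F, x k * b k) ≤ T • ∑ k ∈ F, star (b k) * b k := by
  set R := ∑ k ∈ F, x k * b k with hR
  have h0 : 0 ≤ ∑ k ∈ F, star (b k - T⁻¹ • (star (x k) * R)) * (b k - T⁻¹ • (star (x k) * R)) :=
    Finset.sum_nonneg fun k _ => star_mul_self_nonneg _
  have e1 : ∑ k ∈ F, star (b k - T⁻¹ • (star (x k) * R)) * (b k - T⁻¹ • (star (x k) * R)) =
      (∑ k ∈ F, star (b k) * b k) - T⁻¹ • (star R * R) - T⁻¹ • (star R * R) +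
        (T⁻¹ * T⁻¹) • (star R * (∑ k ∈ F, x k * star (x k)) * R) := by
    have e : ∀ k, star (b k - T⁻¹ • (star (x k) * R)) * (b k - T⁻¹ • (star (x k) * R)) =
        star (b k) * b k - T⁻¹ • (star (x k * b k) * R) - T⁻¹ • (star R * (x k * b k)) +
          (T⁻¹ * T⁻¹) • (star R * (x k * star (x k)) * R) := by
      intro k
      simp only [star_sub, star_smul, star_trivial, star_mul, star_star, sub_mul, mul_sub,
        smul_mul_assoc, mul_smul_comm, smul_smul, smul_sub, mul_assoc]
      abel
    rw [Finset.sum_congr rfl fun k _ => e k]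
    simp only [Finset.sum_sub_distrib, Finset.sum_add_distrib, ← Finset.smul_sum, ← Finset.mul_sum,
      ← Finset.sum_mul, ← star_sum, ← hR]
  have h1 : (T⁻¹ * T⁻¹) • (star R * (∑ k ∈ F, x k * star (x k)) * R) ≤ T⁻¹ • (star R * R) := by
    refine (smul_le_smul_of_nonneg_left (star_left_conjugate_le_conjugate hx R)
      (by positivity)).trans (le_of_eq ?_)
    rw [← Algebra.commutes T (star R), mul_assoc, ← Algebra.smul_def, smul_smul, mul_assoc,
      inv_mul_cancel₀ hT.ne', mul_one]
  have h2 : T⁻¹ • (star R * R) ≤ ∑ k ∈ F, star (b k) * b k := by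
    rw [e1] at h0
    have := h0.trans (add_le_add le_rfl h1)
    rwa [sub_add_cancel, sub_nonneg] at this
  have := smul_le_smul_of_nonneg_left h2 hT.le
  rwa [smul_smul, mul_inv_cancel₀ hT.ne', one_smul] at this

/-- `(1 - s) X* X + (1 - 1/s) Y* Y ≤ (X + Y)* (X + Y)`. -/
theorem star_add_mul_le (X Y : A) {s : ℝ} (hs : 0 < s) :
    (1 - s) • (star X * X) + (1 - s⁻¹) • (star Y * Y) ≤ star (X + Y) * (X + Y) := by
  rw [← sub_nonneg]
  have h : star (X + Y) * (X + Y) - ((1 - s) • (star X * X) + (1 - s⁻¹) • (star Y * Y)) =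
      s⁻¹ • (star (s • X + Y) * (s • X + Y)) := by
    simp only [star_add, star_smul, star_trivial, add_mul, mul_add, smul_mul_assoc, mul_smul_comm,
      smul_smul, smul_add, sub_smul, one_smul]
    simp only [← mul_assoc, inv_mul_cancel₀ hs.ne', one_mul, one_smul]
    abel
  rw [h]
  exact smul_nonneg (by positivity) (star_mul_self_nonneg _)

omit [PartialOrder A] [StarOrderedRing A] in
theorem star_sum_mul_sum_of_subsingleton {κ : Type*} (F : Finset κ) (y : κ → A)
    (hF : (F : Set κ).Subsingleton) :
    star (∑ k ∈ F, y k) * (∑ k ∈ F, y k) = ∑ k ∈ F, star (y k) * y k := by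
  classical
  induction F using Finset.induction_on with
  | empty => simp
  | @insert a F ha _ =>
    have : F = ∅ := Finset.eq_empty_of_forall_notMem fun b hb =>
      ha (hF (Finset.mem_insert_self a F) (Finset.mem_insert_of_mem hb) ▸ hb)
    simp [this]

variable {p n : ℕ}

/-- Multiplying by the generator puts it in front of the reduced word. -/
def IsGood (k : (Fin p × Free p n) × Fin n) : Prop :=
  k.1.2.toWord.head? ≠ some ((k.1.1, k.2), false)

omit [PartialOrder A] [StarOrderedRing A] in
theorem coefKernel_freeCoef (x : Fin n → A) (a : A) (e : ℝ) (u u' : Fin p × Free p n) :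
    coefKernel (freeSupport p n) (freeCoef x a e) (MonoidHom.id _) u u' =
      (∑ i, ∑ j, if gen u.1 i * u.2 = gen u'.1 j * u'.2 then star (x i) * x j else 0) +
        if u = u' then algebraMap ℝ A e - a else 0 := by
  classical
  have hz : ∀ i j, u.2 * u'.2⁻¹ = (gen u.1 i)⁻¹ * gen u'.1 j ↔
      gen u.1 i * u.2 = gen u'.1 j * u'.2 := fun i j => by
    rw [mul_inv_eq_iff_eq_mul, mul_assoc, eq_inv_mul_iff_mul_eq]
  have hK : coefKernel (freeSupport p n) (freeCoef x a e) (MonoidHom.id _) u u' =
      freeCoef x a e (u.2 * u'.2⁻¹) u.1 u'.1 := by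
    simp only [coefKernel, MonoidHom.id_apply, Finset.sum_ite_eq']
    refine ite_eq_left_iff.2 fun h => ?_
    simp only [freeSupport, Finset.mem_insert, Finset.mem_image, Finset.mem_univ, true_and,
      not_or, not_exists] at h
    rw [freeCoef, if_neg fun hh => h.1 hh.2, add_zero]
    refine (Finset.sum_eq_zero fun i _ => Finset.sum_eq_zero fun j _ => if_neg fun hh => ?_).symm
    exact h.2 ((u.1, i), (u'.1, j)) hh.symm
  rw [hK, freeCoef]
  congr 1
  · exact Finset.sum_congr rfl fun i _ => Finset.sum_congr rfl fun j _ =>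
      if_congr (hz i j) rfl rfl
  · refine if_congr ?_ rfl rfl
    rw [mul_inv_eq_one, Prod.ext_iff]

theorem toWord_gen_mul {k : (Fin p × Free p n) × Fin n} (hk : IsGood k) :
    (gen k.1.1 k.2 * k.1.2).toWord = ((k.1.1, k.2), true) :: k.1.2.toWord := by
  rw [gen, FreeGroup.toWord_mul, FreeGroup.toWord_of, List.singleton_append, FreeGroup.reduce.cons,
    FreeGroup.reduce_toWord]
  rcases hw : k.1.2.toWord with _ | ⟨⟨d, β⟩, l⟩
  · rfl
  · refine if_neg fun h => ?_
    obtain rfl := h.1
    have hβ : β = false := by simpa using h.2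
    exact hk (by rw [hw, hβ]; rfl)

omit [PartialOrder A] [StarOrderedRing A] in
/-- The quadratic form of the free kernel. -/
theorem kernel_form (x : Fin n → A) (a : A) (e : ℝ) (W : Finset (Fin p × Free p n))
    (b : Fin p × Free p n → A) :
    ∑ u ∈ W, ∑ u' ∈ W, star (b u) *
        coefKernel (freeSupport p n) (freeCoef x a e) (MonoidHom.id _) u u' * b u' =
      (∑ v ∈ (W ×ˢ Finset.univ).image (fun k : _ × Fin n => gen k.1.1 k.2 * k.1.2),
          star (∑ k ∈ W ×ˢ Finset.univ with gen k.1.1 k.2 * k.1.2 = v, x k.2 * b k.1) *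
            (∑ k ∈ W ×ˢ Finset.univ with gen k.1.1 k.2 * k.1.2 = v, x k.2 * b k.1)) +
        ∑ u ∈ W, star (b u) * (algebraMap ℝ A e - a) * b u := by
  classical
  simp only [coefKernel_freeCoef, mul_add, add_mul, Finset.sum_add_distrib]
  congr 1
  · conv_lhs => simp only [Finset.mul_sum, Finset.sum_mul, mul_ite, ite_mul, mul_zero, zero_mul]
    rw [Finset.sum_congr rfl fun u _ => Finset.sum_comm, ← Finset.sum_product (s := W)
      (t := Finset.univ) (f := fun k : _ × Fin n => ∑ u' ∈ W, ∑ j,
        if gen k.1.1 k.2 * k.1.2 = gen u'.1 j * u'.2 then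
          star (b k.1) * (star (x k.2) * x j) * b u' else 0)]
    rw [← Finset.sum_fiberwise_of_maps_to (g := fun k : _ × Fin n => gen k.1.1 k.2 * k.1.2)
      (fun k hk => Finset.mem_image_of_mem _ hk)]
    refine Finset.sum_congr rfl fun v _ => ?_
    rw [star_sum, Finset.sum_mul]
    refine Finset.sum_congr rfl fun k hk => ?_
    rw [Finset.mem_filter] at hk
    rw [Finset.mul_sum, ← Finset.sum_product (s := W) (t := Finset.univ)
      (f := fun k' : _ × Fin n => if gen k.1.1 k.2 * k.1.2 = gen k'.1.1 k'.2 * k'.1.2 then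
        star (b k.1) * (star (x k.2) * x k'.2) * b k'.1 else 0), Finset.sum_filter]
    refine Finset.sum_congr rfl fun k' _ => ?_
    simp only [hk.2, eq_comm (a := v), star_mul, mul_assoc]
  · refine Finset.sum_congr rfl fun u hu => ?_
    simp [mul_ite, ite_mul, hu]

/-- The free norm bound. -/
theorem free : FreeStatement.{u} := by
  intro A _ _ _ p n x a d t ha ha1 hd hd1 ht ht1 hnorm hrow W b
  classical
  rw [kernel_form]
  set P := W ×ˢ (Finset.univ : Finset (Fin n))
  set val := fun k : (Fin p × Free p n) × Fin n => gen k.1.1 k.2 * k.1.2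
  set V := P.image val
  set y := fun k : (Fin p × Free p n) × Fin n => x k.2 * b k.1
  set T : ℝ := ((p : ℝ) + 1) * t with hT
  set e : ℝ := d + 4 * Real.sqrt T
  set B := ∑ u ∈ W, star (b u) * b u
  set Aa := ∑ u ∈ W, star (b u) * a * b u
  have hB : 0 ≤ B := Finset.sum_nonneg fun u _ => star_mul_self_nonneg _
  have hAa : Aa ≤ B := Finset.sum_le_sum fun u _ => by
    simpa using star_left_conjugate_le_conjugate ((CStarAlgebra.norm_le_one_iff_of_nonneg a ha).1 ha1)
      (b u)
  have hlast : ∑ u ∈ W, star (b u) * (algebraMap ℝ A e - a) * b u = e • B - Aa := by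
    simp only [B, Aa, mul_sub, sub_mul, Finset.sum_sub_distrib, Algebra.algebraMap_eq_smul_one,
      mul_smul_comm, smul_mul_assoc, mul_one, Finset.smul_sum]
  rw [hlast]
  rcases le_or_gt 1 T with h1 | h1
  · refine add_nonneg (Finset.sum_nonneg fun v _ => star_mul_self_nonneg _) (sub_nonneg.2 ?_)
    calc Aa ≤ (1 : ℝ) • B := by rwa [one_smul]
      _ ≤ e • B := smul_le_smul_of_nonneg_right
        (by have := Real.one_le_sqrt.2 h1; simp only [e]; linarith) hB
  have hsa : IsSelfAdjoint ((∑ i, star (x i) * x i) - a) :=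
    (isSelfAdjoint_sum _ fun i _ => IsSelfAdjoint.star_mul_self (x i)).sub (IsSelfAdjoint.of_nonneg ha)
  have hlow : a - algebraMap ℝ A d ≤ ∑ i, star (x i) * x i := by
    have := ((neg_le_neg (algebraMap_mono A hnorm)).trans hsa.neg_algebraMap_norm_le_self)
    rwa [le_sub_iff_add_le, neg_add_eq_sub] at this
  rcases ht.eq_or_lt with rfl | htpos
  · have hx0 : ∀ i, x i = 0 := fun i => by
      refine (CStarRing.mul_star_self_eq_zero_iff _).1 (le_antisymm ?_ (mul_star_self_nonneg _))
      exact (Finset.single_le_sum (fun j _ => mul_star_self_nonneg (x j)) (Finset.mem_univ i)).trans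
        (hrow.trans (by simp))
    have hae : a ≤ algebraMap ℝ A e := by
      simpa [hx0, e, T] using hlow
    refine add_nonneg (Finset.sum_nonneg fun v _ => star_mul_self_nonneg _) ?_
    rw [← hlast]
    exact Finset.sum_nonneg fun u _ =>
      star_left_conjugate_nonneg (sub_nonneg.2 hae) _
  have hTpos : 0 < T := by positivity
  set s : ℝ := Real.sqrt T with hs
  have hspos : 0 < s := Real.sqrt_pos.2 hTpos
  have hs1 : s < 1 := Real.sqrt_lt' one_pos |>.2 (by simpa using h1)
  have hss : s * s = T := Real.mul_self_sqrt hTpos.le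
  set X := fun v => ∑ k ∈ {k ∈ P | val k = v} with IsGood k, y k
  set Y := fun v => ∑ k ∈ {k ∈ P | val k = v} with ¬IsGood k, y k
  have hmaps : ∀ k ∈ P, val k ∈ V := fun k hk => Finset.mem_image_of_mem _ hk
  have hone : ∀ i, star (x i) * x i ≤ algebraMap ℝ A t := fun i => by
    refine (CStarAlgebra.norm_le_iff_le_algebraMap _ ht (star_mul_self_nonneg _)).1 ?_
    rw [CStarRing.norm_star_mul_self, ← CStarRing.norm_self_mul_star]
    exact (CStarAlgebra.norm_le_iff_le_algebraMap _ ht (mul_star_self_nonneg _)).2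
      ((Finset.single_le_sum (fun j _ => mul_star_self_nonneg (x j)) (Finset.mem_univ i)).trans hrow)
  -- the first letter part
  have hX : Aa - (d + t) • B ≤ ∑ v ∈ V, star (X v) * X v := by
    have e1 : ∀ v, star (X v) * X v = ∑ k ∈ {k ∈ P | val k = v} with IsGood k, star (y k) * y k := by
      intro v
      refine star_sum_mul_sum_of_subsingleton _ _ fun k hk k' hk' => ?_
      simp only [Finset.coe_filter, Finset.mem_filter, Set.mem_ofPred_eq] at hk hk'
      have h := congrArg (fun z => z.toWord) (hk.1.2.trans hk'.1.2.symm)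
      simp only [val, toWord_gen_mul hk.2, toWord_gen_mul hk'.2, List.cons.injEq, Prod.mk.injEq,
        and_true] at h
      exact Prod.ext (Prod.ext h.1.1 (FreeGroup.toWord_injective h.2)) h.1.2
    have e2 : ∑ v ∈ V, star (X v) * X v =
        ∑ u ∈ W, star (b u) * (∑ i, if IsGood (u, i) then star (x i) * x i else 0) * b u := by
      simp only [e1, Finset.sum_filter]
      rw [← Finset.sum_congr rfl fun v _ => Finset.sum_filter (fun k => val k = v)
        (fun k => if IsGood k then star (y k) * y k else 0)]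
      rw [Finset.sum_fiberwise_of_maps_to hmaps, Finset.sum_product]
      simp only [Finset.mul_sum, Finset.sum_mul, mul_ite, ite_mul, mul_zero, zero_mul, y, star_mul,
        mul_assoc]
    rw [e2]
    simp only [B, Aa, Finset.smul_sum, ← Finset.sum_sub_distrib]
    refine Finset.sum_le_sum fun u _ => ?_
    have hbad : (∑ i, if ¬IsGood (u, i) then star (x i) * x i else 0) ≤ algebraMap ℝ A t := by
      rw [← Finset.sum_filter]
      rcases (Finset.univ.filter fun i => ¬IsGood (u, i)).eq_empty_or_nonempty with he | ⟨i, hi⟩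
      · rw [he, Finset.sum_empty]
        exact algebraMap_nonneg A ht
      · rw [Finset.sum_eq_single_of_mem i hi fun j hj hji => absurd ?_ hji]
        · exact hone i
        · simp only [Finset.mem_filter, IsGood, not_not] at hi hj
          have := hj.2.symm.trans hi.2
          simpa using this
    have hsum : (∑ i, if IsGood (u, i) then star (x i) * x i else 0) +
        (∑ i, if ¬IsGood (u, i) then star (x i) * x i else 0) = ∑ i, star (x i) * x i := by
      rw [← Finset.sum_add_distrib]
      exact Finset.sum_congr rfl fun i _ => by split_ifs <;> simp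
    have : a - algebraMap ℝ A (d + t) ≤ ∑ i, if IsGood (u, i) then star (x i) * x i else 0 := by
      rw [map_add, ← sub_sub, sub_le_iff_le_add]
      exact (hlow.trans hsum.ge).trans (add_le_add le_rfl hbad)
    refine le_trans (le_of_eq ?_) (star_left_conjugate_le_conjugate this (b u))
    simp only [Algebra.algebraMap_eq_smul_one, mul_sub, sub_mul, mul_smul_comm, smul_mul_assoc,
      mul_one]
  -- the cancelling part
  have hY : ∑ v ∈ V, star (Y v) * Y v ≤ T • B := by
    have e1 : ∀ v, star (Y v) * Y v ≤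
        T • ∑ k ∈ {k ∈ P | val k = v} with ¬IsGood k, star (b k.1) * b k.1 := by
      intro v
      refine star_row_le _ (fun k : (Fin p × Free p n) × Fin n => x k.2) (fun k => b k.1) hTpos ?_
      set F := {k ∈ {k ∈ P | val k = v} | ¬IsGood k}
      have hinj : Set.InjOn (fun k : (Fin p × Free p n) × Fin n => (k.1.1, k.2)) F := by
        intro k hk k' hk' hkk
        simp only [F, Finset.coe_filter, Finset.mem_filter, Set.mem_ofPred_eq] at hk hk'
        simp only [Prod.mk.injEq] at hkk
        have h := hk.1.2.trans hk'.1.2.symm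
        simp only [val, hkk.1, hkk.2, mul_right_inj] at h
        exact Prod.ext (Prod.ext hkk.1 h) hkk.2
      calc ∑ k ∈ F, x k.2 * star (x k.2)
          = ∑ q ∈ F.image (fun k : (Fin p × Free p n) × Fin n => (k.1.1, k.2)), x q.2 * star (x q.2) :=
            (Finset.sum_image (f := fun q => x q.2 * star (x q.2)) hinj).symm
        _ ≤ ∑ q : Fin p × Fin n, x q.2 * star (x q.2) :=
            Finset.sum_le_sum_of_subset_of_nonneg (Finset.subset_univ _)
              fun q _ _ => mul_star_self_nonneg _
        _ ≤ ∑ _c : Fin p, algebraMap ℝ A t := by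
            rw [Fintype.sum_prod_type]
            exact Finset.sum_le_sum fun c _ => hrow
        _ ≤ algebraMap ℝ A T := by
            rw [← map_sum]
            exact algebraMap_mono A (by simp [T]; nlinarith)
    refine (Finset.sum_le_sum fun v _ => e1 v).trans ?_
    rw [← Finset.smul_sum]
    refine smul_le_smul_of_nonneg_left ?_ hTpos.le
    simp only [Finset.sum_filter]
    rw [← Finset.sum_congr rfl fun v _ => Finset.sum_filter (fun k => val k = v)
      (fun k => if ¬IsGood k then star (b k.1) * b k.1 else 0)]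
    rw [Finset.sum_fiberwise_of_maps_to hmaps, Finset.sum_product]
    refine Finset.sum_le_sum fun u _ => ?_
    rw [← Finset.sum_filter]
    rcases (Finset.univ.filter fun i => ¬IsGood (u, i)).eq_empty_or_nonempty with he | ⟨i, hi⟩
    · rw [he, Finset.sum_empty]
      exact star_mul_self_nonneg _
    · rw [Finset.sum_eq_single_of_mem i hi fun j hj hji => absurd ?_ hji]
      simp only [Finset.mem_filter, IsGood, not_not] at hi hj
      simpa using hj.2.symm.trans hi.2
  have hsplit : ∑ v ∈ V, ((1 - s) • (star (X v) * X v) + (1 - s⁻¹) • (star (Y v) * Y v)) ≤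
      ∑ v ∈ V, star (∑ k ∈ P with val k = v, y k) * (∑ k ∈ P with val k = v, y k) :=
    Finset.sum_le_sum fun v _ => by
      rw [← Finset.sum_filter_add_sum_filter_not {k ∈ P | val k = v} IsGood y]
      exact star_add_mul_le _ _ hspos
  have hcoef : (1 - s⁻¹) ≤ 0 := sub_nonpos.2 (one_le_inv₀ hspos |>.2 hs1.le)
  have hmain : (1 - s) • (Aa - (d + t) • B) + (1 - s⁻¹) • (T • B) + (e • B - Aa) ≤
      ∑ v ∈ V, star (∑ k ∈ P with val k = v, y k) * (∑ k ∈ P with val k = v, y k) +
        (e • B - Aa) := by
    refine add_le_add (le_trans ?_ hsplit) le_rfl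
    rw [Finset.sum_add_distrib, ← Finset.smul_sum, ← Finset.smul_sum]
    refine add_le_add (smul_le_smul_of_nonneg_left hX (sub_nonneg.2 hs1.le)) ?_
    exact smul_le_smul_of_nonpos_left hY hcoef
  refine le_trans ?_ hmain
  have heq : (1 - s) • (Aa - (d + t) • B) + (1 - s⁻¹) • (T • B) + (e • B - Aa) =
      (e - (1 - s) * (d + t) + (1 - s⁻¹) * T - s) • B + s • (B - Aa) := by
    module
  rw [heq]
  refine add_nonneg (smul_nonneg ?_ hB) (smul_nonneg hspos.le (sub_nonneg.2 hAa))
  have htT : t ≤ T := by simp only [T]; nlinarith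
  have hTs : s⁻¹ * T = s := by rw [← hss, ← mul_assoc, inv_mul_cancel₀ hspos.ne', one_mul]
  have : e = d + 4 * s := rfl
  nlinarith

end Vale.Agent.P095.Compare
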