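import Vale.Agent.P095.Compare.Defs
import Mathlib.Analysis.CStarAlgebra.CStarMatrix

/-!
# P095 comparison: kernels that are positive as quadratic forms are Gram kernels
-/

noncomputable section

namespace Vale.Agent.P095.Compare

universe u

variable {A : Type u} [CStarAlgebra A] [PartialOrder A] [StarOrderedRing A]

/-- A finite kernel with positive quadratic form is Hermitian. -/
theorem kernel_star {κ : Type*} [Fintype κ] [DecidableEq κ] (R : κ → κ → A)
    (h : ∀ b : κ → A, 0 ≤ ∑ u, ∑ v, star (b u) * R u v * b v) (k l : κ) :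
    star (R k l) = R l k := by
  have key : ∀ c : ℂ, IsSelfAdjoint
      (R k k + c • R k l + star c • R l k + (star c * c) • R l l) := by
    intro c
    let b : κ → A := fun u => (if u = k then (1 : A) else 0) + if u = l then c • (1 : A) else 0
    have hb := IsSelfAdjoint.of_nonneg (h b)
    have hs : ∀ u, star (b u) =
        (if u = k then (1 : A) else 0) + if u = l then star c • (1 : A) else 0 := by
      intro u
      simp only [b, star_add, apply_ite star, star_one, star_zero, star_smul]
    have e : ∑ u, ∑ v, star (b u) * R u v * b v =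
        R k k + c • R k l + star c • R l k + (star c * c) • R l l := by
      simp only [hs, b, mul_add, add_mul, Finset.sum_add_distrib, ite_mul, mul_ite, one_mul,
        mul_one, zero_mul, mul_zero, smul_mul_assoc, mul_smul_comm, Finset.sum_ite_eq',
        Finset.mem_univ, if_true]
      simp only [smul_add, apply_ite (c • ·), smul_zero, smul_smul,
        Finset.sum_add_distrib, Finset.sum_ite_eq', Finset.mem_univ, if_true]
      rw [mul_comm c (star c)]
      abel
    rwa [e] at hb
  have hd : ∀ u, IsSelfAdjoint (R u u) := by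
    intro u
    have hb := IsSelfAdjoint.of_nonneg (h fun v => if v = u then 1 else 0)
    simpa [apply_ite star, Finset.sum_ite_irrel] using hb
  have h1 := (key 1).star_eq
  have h2 := (key Complex.I).star_eq
  simp only [star_add, star_smul, (hd k).star_eq, (hd l).star_eq, star_one, one_smul, mul_one,
    Complex.star_def, Complex.conj_I, neg_mul,
    Complex.I_mul_I, neg_neg, neg_smul, star_neg] at h1 h2
  linear_combination (norm := skip) (1 / 2 : ℂ) • h1 + (Complex.I / 2) • h2
  match_scalars <;> simp [Complex.ext_iff] <;> norm_num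

/-- The negative part `g` of a self-adjoint element and `W = g ^ (3 / 2)`: if `W` vanishes, the
element is positive. -/
theorem exists_negative_test {B : Type*} [CStarAlgebra B] {M : B} (hM : IsSelfAdjoint M) :
    ∃ N W : B, star W * W = -(star N * M * N) ∧ (W = 0 → ∃ Z, star Z * Z = M) := by
  let g : ℝ → ℝ := fun t => max (-t) 0
  let s : ℝ → ℝ := fun t => Real.sqrt (g t * g t * g t)
  refine ⟨cfc g M, cfc s M, ?_, fun hW => ?_⟩
  · rw [(cfc_predicate g M : IsSelfAdjoint (cfc g M)).star_eq,
      (cfc_predicate s M : IsSelfAdjoint (cfc s M)).star_eq]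
    rw [← cfc_mul s s M (by fun_prop) (by fun_prop)]
    conv_rhs => arg 1; arg 1; arg 2; rw [← cfc_id' ℝ M hM]
    rw [← cfc_mul g (fun t => t) M (by fun_prop) (by fun_prop),
      ← cfc_mul (fun t => g t * t) g M (by fun_prop) (by fun_prop), ← cfc_neg]
    refine cfc_congr fun t _ => ?_
    simp only [s, g]
    rw [Real.mul_self_sqrt (mul_nonneg (mul_self_nonneg _) (le_max_right _ _))]
    rcases le_total t 0 with ht | ht
    · rw [max_eq_left (show (0 : ℝ) ≤ -t by linarith)]; ring
    · rw [max_eq_right (show -t ≤ (0 : ℝ) by linarith)]; ring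
  · have hs0 : ∀ t ∈ spectrum ℝ M, 0 ≤ t := by
      intro t ht
      by_contra hneg
      have h1 : s t = 0 := by
        by_contra hne
        have h2 := norm_apply_le_norm_cfc s M ht (by fun_prop) hM
        rw [hW, norm_zero, norm_le_zero_iff] at h2
        exact hne h2
      simp only [s, g, max_eq_left (show (0 : ℝ) ≤ -t by linarith)] at h1
      rw [Real.sqrt_eq_zero'] at h1
      have : (0 : ℝ) < -t * -t * -t := by
        have : (0 : ℝ) < -t := by linarith
        positivity
      linarith
    let q : ℝ → ℝ := fun t => Real.sqrt (max t 0)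
    refine ⟨cfc q M, ?_⟩
    rw [(cfc_predicate q M : IsSelfAdjoint (cfc q M)).star_eq,
      ← cfc_mul q q M (by fun_prop) (by fun_prop)]
    conv_rhs => rw [← cfc_id' ℝ M hM]
    refine cfc_congr fun t ht => ?_
    simp only [q]
    rw [Real.mul_self_sqrt (le_max_right _ _), max_eq_left (hs0 t ht)]

/-- A finite kernel with positive quadratic form is a Gram kernel. -/
theorem exists_gram {κ : Type*} [Fintype κ] [DecidableEq κ] (R : κ → κ → A)
    (h : ∀ b : κ → A, 0 ≤ ∑ u, ∑ v, star (b u) * R u v * b v) :
    ∃ Z : κ → κ → A, ∀ u v, R u v = ∑ z, star (Z z u) * Z z v := by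
  let M : CStarMatrix κ κ A := CStarMatrix.ofMatrix (Matrix.of R)
  have hM : IsSelfAdjoint M := by
    refine CStarMatrix.ext fun u v => ?_
    show star (R v u) = R u v
    exact kernel_star R h v u
  obtain ⟨N, W, hW, hpos⟩ := exists_negative_test hM
  have hW0 : W = 0 := by
    refine CStarMatrix.ext fun z k => ?_
    have h1 : ∑ z, star (W z k) * W z k = -∑ u, ∑ v, star (N u k) * R u v * N v k := by
      have := congrArg (fun X : CStarMatrix κ κ A => X k k) hW
      simp only [CStarMatrix.mul_apply, CStarMatrix.star_apply, CStarMatrix.neg_apply,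
        Finset.sum_mul] at this
      rw [this, Finset.sum_comm]
      rfl
    have h2 : ∑ z, star (W z k) * W z k ≤ 0 := by
      rw [h1, neg_nonpos]
      exact h fun u => N u k
    have h3 := le_antisymm h2 (Finset.sum_nonneg fun z _ => star_mul_self_nonneg (W z k))
    have h4 := (Finset.sum_eq_zero_iff_of_nonneg fun z _ => star_mul_self_nonneg (W z k)).1 h3 z
      (Finset.mem_univ z)
    rw [CStarMatrix.zero_apply]
    exact (CStarRing.star_mul_self_eq_zero_iff _).1 h4
  obtain ⟨Z, hZ⟩ := hpos hW0
  refine ⟨fun z u => Z z u, fun u v => ?_⟩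
  have := congrArg (fun X : CStarMatrix κ κ A => X u v) hZ
  simp only [CStarMatrix.mul_apply, CStarMatrix.star_apply] at this
  exact this.symm

end Vale.Agent.P095.Compare
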