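import Vale.Agent.P095.Compare.Specs
import Vale.Agent.P095.Compare.Gram
import Mathlib.Analysis.Matrix.Spectrum
import Mathlib.GroupTheory.FreeGroup.Reduce

/-!
# P095 comparison: finite models of positive kernels on free groups

A positive finitely supported kernel `T` on `ι × F` has `0 ≤ T ≤ K`, so the value at the unit of
`(K - T) ^ m` is at most `K ^ m`.  In a finite group into which `F` maps injectively on the words
that occur, this value is the normalised trace of the same power, which bounds the number of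
eigenvalues of the image of `T` below `-γ`.
-/

noncomputable section

namespace Vale.Agent.P095.Compare

open scoped ComplexOrder

universe v w

set_option linter.unusedSectionVars false

/-! ### Products of kernels -/

section Kernel

variable {F : Type*} [Group F] [DecidableEq F] {H : Type v} [Group H] [DecidableEq H]
  {ι : Type w} [Fintype ι] [DecidableEq ι]

/-- The product of coefficient functions. -/
def coefMul (S₁ S₂ : Finset F) (C₁ C₂ : F → ι → ι → ℂ) (z : F) (i j : ι) : ℂ :=
  ∑ a ∈ S₁, ∑ b ∈ S₂, if a * b = z then ∑ k, C₁ a i k * C₂ b k j else 0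

theorem coefKernel_mul (S₁ S₂ : Finset F) (C₁ C₂ : F → ι → ι → ℂ) (π : F →* H) (B : Finset H)
    (u u' : ι × H) (hB : ∀ b ∈ S₂, π b * u'.2 ∈ B) :
    ∑ k, ∑ h ∈ B, coefKernel S₁ C₁ π u (k, h) * coefKernel S₂ C₂ π (k, h) u' =
      coefKernel (Finset.image₂ (· * ·) S₁ S₂) (coefMul S₁ S₂ C₁ C₂) π u u' := by
  have lhs : ∑ k, ∑ h ∈ B, coefKernel S₁ C₁ π u (k, h) * coefKernel S₂ C₂ π (k, h) u' =
      ∑ a ∈ S₁, ∑ b ∈ S₂,
        if π (a * b) = u.2 * u'.2⁻¹ then ∑ k, C₁ a u.1 k * C₂ b k u'.1 else 0 := by
    calc ∑ k, ∑ h ∈ B, coefKernel S₁ C₁ π u (k, h) * coefKernel S₂ C₂ π (k, h) u'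
        = ∑ k, ∑ a ∈ S₁, ∑ b ∈ S₂, ∑ h ∈ B,
            if π a = u.2 * h⁻¹ ∧ π b = h * u'.2⁻¹ then C₁ a u.1 k * C₂ b k u'.1 else 0 := by
          refine Finset.sum_congr rfl fun k _ => ?_
          simp only [coefKernel, Finset.sum_mul_sum]
          rw [Finset.sum_comm]
          refine Finset.sum_congr rfl fun a _ => Finset.sum_comm.trans
            (Finset.sum_congr rfl fun b _ => Finset.sum_congr rfl fun h _ => ?_)
          by_cases h1 : π a = u.2 * h⁻¹ <;> by_cases h2 : π b = h * u'.2⁻¹ <;> simp [h1, h2]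
      _ = ∑ k, ∑ a ∈ S₁, ∑ b ∈ S₂,
            if π (a * b) = u.2 * u'.2⁻¹ then C₁ a u.1 k * C₂ b k u'.1 else 0 := by
          refine Finset.sum_congr rfl fun k _ => Finset.sum_congr rfl fun a _ =>
            Finset.sum_congr rfl fun b hb => ?_
          rw [Finset.sum_eq_single_of_mem _ (hB b hb) fun h _ hne => if_neg fun e => hne ?_]
          · refine if_congr ?_ rfl rfl
            rw [map_mul]
            constructor
            · rintro ⟨e, -⟩
              rw [e]
              group
            · intro e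
              refine ⟨?_, by group⟩
              rw [← mul_inv_eq_iff_eq_mul.2 e.symm]
              group
          · rw [e.2]
            group
      _ = _ := by
          rw [Finset.sum_comm]
          refine Finset.sum_congr rfl fun a _ => ?_
          rw [Finset.sum_comm]
          refine Finset.sum_congr rfl fun b _ => ?_
          split_ifs <;> simp
  rw [lhs, coefKernel]
  simp only [coefMul]
  symm
  calc ∑ z ∈ Finset.image₂ (· * ·) S₁ S₂, (if π z = u.2 * u'.2⁻¹ then
        ∑ a ∈ S₁, ∑ b ∈ S₂, if a * b = z then ∑ k, C₁ a u.1 k * C₂ b k u'.1 else 0 else 0)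
      = ∑ z ∈ Finset.image₂ (· * ·) S₁ S₂, ∑ a ∈ S₁, ∑ b ∈ S₂, if a * b = z then
          (if π z = u.2 * u'.2⁻¹ then ∑ k, C₁ a u.1 k * C₂ b k u'.1 else 0) else 0 := by
        refine Finset.sum_congr rfl fun z _ => ?_
        split_ifs <;> simp
    _ = _ := by
        rw [Finset.sum_comm]
        refine Finset.sum_congr rfl fun a ha => ?_
        rw [Finset.sum_comm]
        refine Finset.sum_congr rfl fun b hb => ?_
        rw [Finset.sum_ite_eq, if_pos (Finset.mem_image₂_of_mem ha hb)]

/-- The support of a power. -/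
def powSupp (S : Finset F) : ℕ → Finset F
  | 0 => {1}
  | n + 1 => Finset.image₂ (· * ·) S (powSupp S n)

/-- The coefficients of a power. -/
def powCoef (S : Finset F) (C : F → ι → ι → ℂ) : ℕ → F → ι → ι → ℂ
  | 0 => fun _ i j => if i = j then 1 else 0
  | n + 1 => coefMul S (powSupp S n) C (powCoef S C n)

theorem one_mem_powSupp {S : Finset F} (h1 : (1 : F) ∈ S) : ∀ n, (1 : F) ∈ powSupp S n
  | 0 => Finset.mem_singleton_self 1
  | n + 1 => by
    simpa [powSupp] using Finset.mem_image₂_of_mem (f := (· * ·)) h1 (one_mem_powSupp h1 n)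

theorem powSupp_subset {S : Finset F} (h1 : (1 : F) ∈ S) {k n : ℕ} (h : k ≤ n) :
    powSupp S k ⊆ powSupp S n := by
  induction n, h using Nat.le_induction with
  | base => exact subset_rfl
  | succ n _ ih =>
    intro z hz
    simpa [powSupp] using Finset.mem_image₂_of_mem (f := (· * ·)) h1 (ih hz)

/-- The kernel as a matrix. -/
def kerMat [Fintype H] (S : Finset F) (C : F → ι → ι → ℂ) (π : F →* H) :
    Matrix (ι × H) (ι × H) ℂ :=
  Matrix.of fun u u' => coefKernel S C π u u'

theorem kerMat_pow [Fintype H] (S : Finset F) (C : F → ι → ι → ℂ) (π : F →* H) (n : ℕ) :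
    kerMat S C π ^ n = kerMat (powSupp S n) (powCoef S C n) π := by
  induction n with
  | zero =>
    ext u u'
    simp only [pow_zero, Matrix.one_apply, kerMat, Matrix.of_apply, coefKernel, powSupp, powCoef,
      Finset.sum_singleton, map_one, eq_mul_inv_iff_mul_eq, one_mul]
    by_cases h : u = u'
    · simp [h]
    · rw [if_neg h]
      split_ifs with h1 h2 <;> try rfl
      exact absurd (Prod.ext h2 h1.symm) h
  | succ n ih =>
    rw [pow_succ', ih]
    ext u u'
    simp only [Matrix.mul_apply, kerMat, Matrix.of_apply, Fintype.sum_prod_type]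
    exact coefKernel_mul S (powSupp S n) C (powCoef S C n) π Finset.univ u u'
      fun b _ => Finset.mem_univ _

theorem coefKernel_star {S : Finset F} {C : F → ι → ι → ℂ} (hS : ∀ z ∈ S, z⁻¹ ∈ S)
    (hC : ∀ z i j, star (C z i j) = C z⁻¹ j i) (π : F →* H) (u u' : ι × H) :
    star (coefKernel S C π u u') = coefKernel S C π u' u := by
  simp only [coefKernel, star_sum, apply_ite star, star_zero, hC]
  refine Finset.sum_bij' (fun z _ => z⁻¹) (fun z _ => z⁻¹) hS hS (fun z _ => inv_inv z)
    (fun z _ => inv_inv z) fun z _ => ?_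
  refine if_congr ?_ rfl rfl
  rw [map_inv, inv_eq_iff_eq_inv, mul_inv_rev, inv_inv]

/-- The enlarged symmetric support. -/
def symSupp (S : Finset F) : Finset F := insert 1 (S ∪ S.image (·⁻¹))

/-- The coefficients of `K - T`. -/
def defectCoef (S : Finset F) (C : F → ι → ι → ℂ) (K : ℝ) (z : F) (i j : ι) : ℂ :=
  (if z = 1 ∧ i = j then (K : ℂ) else 0) - if z ∈ S then C z i j else 0

theorem symSupp_inv (S : Finset F) : ∀ z ∈ symSupp S, z⁻¹ ∈ symSupp S := by
  intro z hz
  simp only [symSupp, Finset.mem_insert, Finset.mem_union, Finset.mem_image] at hz ⊢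
  rcases hz with rfl | h | ⟨w, hw, rfl⟩
  · exact Or.inl inv_one
  · exact Or.inr (Or.inr ⟨z, h, rfl⟩)
  · exact Or.inr (Or.inl (by rwa [inv_inv]))

theorem coefKernel_defect (S : Finset F) (C : F → ι → ι → ℂ) (K : ℝ) (π : F →* H)
    (u u' : ι × H) : coefKernel (symSupp S) (defectCoef S C K) π u u' =
      (if u = u' then (K : ℂ) else 0) - coefKernel S C π u u' := by
  have h : ∀ z, (if π z = u.2 * u'.2⁻¹ then defectCoef S C K z u.1 u'.1 else 0) =
      (if z = 1 then (if u = u' then (K : ℂ) else 0) else 0) -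
        if z ∈ S then (if π z = u.2 * u'.2⁻¹ then C z u.1 u'.1 else 0) else 0 := by
    intro z
    simp only [defectCoef]
    by_cases h1 : z = 1
    · subst h1
      simp only [map_one, eq_mul_inv_iff_mul_eq, one_mul, true_and, if_true]
      by_cases hu : u = u'
      · subst hu; simp
      · by_cases h2 : u'.2 = u.2
        · have : u.1 ≠ u'.1 := fun e => hu (Prod.ext e h2.symm)
          simp [hu, h2, this]
        · simp [hu, h2]
    · by_cases hz : π z = u.2 * u'.2⁻¹ <;> simp [h1, hz]
  rw [coefKernel, Finset.sum_congr rfl fun z _ => h z, Finset.sum_sub_distrib, Finset.sum_ite_eq',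
    if_pos (show (1 : F) ∈ symSupp S from Finset.mem_insert_self _ _), Finset.sum_ite_mem,
    Finset.inter_eq_right.2 (show S ⊆ symSupp S from
      fun z hz => Finset.mem_insert_of_mem (Finset.mem_union_left _ hz))]
  rfl

theorem sum_norm_coefKernel_le (S : Finset F) (C : F → ι → ι → ℂ) (π : F →* H) (B : Finset H)
    (u' : ι × H) :
    ∑ i, ∑ h ∈ B, ‖coefKernel S C π (i, h) u'‖ ≤ ∑ z ∈ S, ∑ i, ∑ j, ‖C z i j‖ := by
  rw [Finset.sum_comm (s := S)]
  refine Finset.sum_le_sum fun i _ => ?_
  calc ∑ h ∈ B, ‖coefKernel S C π (i, h) u'‖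
      ≤ ∑ h ∈ B, ∑ z ∈ S, if h = π z * u'.2 then ‖C z i u'.1‖ else 0 := by
        refine Finset.sum_le_sum fun h _ => (norm_sum_le _ _).trans (Finset.sum_le_sum fun z _ => ?_)
        rw [apply_ite norm, norm_zero]
        exact le_of_eq (if_congr eq_mul_inv_iff_mul_eq rfl rfl |>.trans (if_congr eq_comm rfl rfl))
    _ = ∑ z ∈ S, ∑ h ∈ B, if h = π z * u'.2 then ‖C z i u'.1‖ else 0 := Finset.sum_comm
    _ ≤ ∑ z ∈ S, ∑ j, ‖C z i j‖ := by
        refine Finset.sum_le_sum fun z _ => ?_
        rw [Finset.sum_ite_eq']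
        have h0 := Finset.single_le_sum (f := fun j => ‖C z i j‖) (fun j _ => norm_nonneg _)
          (Finset.mem_univ u'.1)
        split_ifs
        · exact h0
        · exact Finset.sum_nonneg fun j _ => norm_nonneg _

end Kernel

/-! ### Hermitian matrices -/

section Hermitian

variable {κ : Type*} [Fintype κ] [DecidableEq κ]

theorem exists_decomp {M : Matrix κ κ ℂ} (hM : M.IsHermitian) :
    ∃ (μ : κ → ℝ) (U : Matrix κ κ ℂ),
      (∀ (k : ℕ) u u', (M ^ k) u u' = ∑ l, (μ l : ℂ) ^ k * (U u l * star (U u' l))) ∧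
      ∀ l l', ∑ u, star (U u l) * U u l' = if l = l' then 1 else 0 := by
  refine ⟨hM.eigenvalues, (hM.eigenvectorUnitary : Matrix κ κ ℂ), fun k u u' => ?_, fun l l' => ?_⟩
  · conv_lhs => rw [hM.spectral_theorem, ← map_pow, Matrix.diagonal_pow,
      Unitary.conjStarAlgAut_apply]
    rw [Matrix.mul_apply]
    refine Finset.sum_congr rfl fun l _ => ?_
    rw [Matrix.mul_diagonal, Matrix.star_apply]
    simp only [Pi.pow_apply, Function.comp_apply, RCLike.ofReal_alg, Complex.real_smul, mul_one]
    ring
  · have := congrFun (congrFun (Unitary.coe_star_mul_self hM.eigenvectorUnitary) l) l'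
    simpa [Matrix.mul_apply, Matrix.star_apply, Matrix.one_apply] using this

theorem form_rankOne (c : κ → ℝ) (U : Matrix κ κ ℂ) (f : κ → ℂ) :
    ∑ u, ∑ u', star (f u) * (∑ l, (c l : ℂ) * (U u l * star (U u' l))) * f u' =
      ∑ l, ((c l * Complex.normSq (∑ u, star (U u l) * f u) : ℝ) : ℂ) := by
  simp only [Complex.ofReal_mul, Complex.normSq_eq_conj_mul_self, map_sum, map_mul,
    Complex.star_def, Complex.conj_conj, Finset.sum_mul, Finset.mul_sum]
  rw [Finset.sum_congr rfl fun u _ => Finset.sum_comm, Finset.sum_comm]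
  exact Finset.sum_congr rfl fun l _ => Finset.sum_comm.trans <| Finset.sum_congr rfl fun u _ =>
    Finset.sum_congr rfl fun u' _ => by ring

theorem diag_decomp {μ : κ → ℝ} {U : Matrix κ κ ℂ} (n : ℕ) {M : Matrix κ κ ℂ}
    (h : ∀ (k : ℕ) u u', (M ^ k) u u' = ∑ l, (μ l : ℂ) ^ k * (U u l * star (U u' l))) (u : κ) :
    ((M ^ n) u u).re = ∑ l, μ l ^ n * Complex.normSq (U u l) := by
  rw [h, Complex.re_sum]
  refine Finset.sum_congr rfl fun l _ => ?_
  rw [Complex.star_def, Complex.mul_conj, ← Complex.ofReal_pow, ← Complex.ofReal_mul,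
    Complex.ofReal_re]

/-- If `0 ≤ K - M` and the columns of `K - M` have `ℓ¹`-norm at most `K`, then the diagonal of a
power of `M` is at most the same power of `K`. -/
theorem re_pow_diag_le {M : Matrix κ κ ℂ} (hM : M.IsHermitian) (K : ℝ)
    (hpos : ∀ f : κ → ℂ,
      0 ≤ ∑ u, ∑ u', star (f u) * ((if u = u' then (K : ℂ) else 0) - M u u') * f u')
    (hcol : ∀ u', ∑ u, ‖(if u = u' then (K : ℂ) else 0) - M u u'‖ ≤ K) (u : κ) (n : ℕ) :
    ((M ^ n) u u).re ≤ K ^ n := by
  obtain ⟨μ, U, hpow, horth⟩ := exists_decomp hM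
  have heig : ∀ l v, ∑ u', ((if v = u' then (K : ℂ) else 0) - M v u') * U u' l =
      ((K - μ l : ℝ) : ℂ) * U v l := by
    intro l v
    have hv : ∑ u', M v u' * U u' l = (μ l : ℂ) * U v l := by
      calc ∑ u', M v u' * U u' l
          = ∑ u', ∑ l', (μ l' : ℂ) * (U v l' * star (U u' l')) * U u' l := by
            refine Finset.sum_congr rfl fun u' _ => ?_
            rw [← Finset.sum_mul]
            refine congrArg (· * _) ?_
            simpa using hpow 1 v u'
        _ = ∑ l', (μ l' : ℂ) * U v l' * ∑ u', star (U u' l') * U u' l := by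
            rw [Finset.sum_comm]
            refine Finset.sum_congr rfl fun l' _ => ?_
            rw [Finset.mul_sum]
            exact Finset.sum_congr rfl fun u' _ => by ring
        _ = _ := by
            simp only [horth, mul_ite, mul_one, mul_zero, Finset.sum_ite_eq', Finset.mem_univ, if_true]
    simp only [sub_mul, Finset.sum_sub_distrib, hv, ite_mul, zero_mul, Finset.sum_ite_eq,
      Finset.mem_univ, if_true, Complex.ofReal_sub]
  have hn1 : ∀ l, (∑ v, Complex.normSq (U v l) : ℝ) = 1 := by
    intro l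
    have := congrArg Complex.re (horth l l)
    simpa [Complex.re_sum, Complex.normSq_apply, Complex.mul_re] using this
  have hle : ∀ l, μ l ≤ K := by
    intro l
    have h := hpos fun v => U v l
    have e : ∑ v, ∑ u', star (U v l) * ((if v = u' then (K : ℂ) else 0) - M v u') * U u' l =
        ((K - μ l : ℝ) : ℂ) * ((∑ v, Complex.normSq (U v l) : ℝ) : ℂ) := by
      rw [Complex.ofReal_sum, Finset.mul_sum]
      refine Finset.sum_congr rfl fun v _ => ?_
      simp only [mul_assoc, ← Finset.mul_sum, heig]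
      rw [Complex.normSq_eq_conj_mul_self, Complex.star_def]
      ring
    rw [e, hn1, Complex.ofReal_one, mul_one, Complex.zero_le_real] at h
    linarith
  have hge : ∀ l, |K - μ l| ≤ K := by
    intro l
    have hsum : 0 < ∑ v, ‖U v l‖ := by
      obtain ⟨v, -, hv⟩ := Finset.exists_ne_zero_of_sum_ne_zero
        (show ∑ v, Complex.normSq (U v l) ≠ 0 by rw [hn1]; exact one_ne_zero)
      exact Finset.sum_pos' (fun _ _ => norm_nonneg _) ⟨v, Finset.mem_univ _,
        norm_pos_iff.2 fun e => hv (by simp [e])⟩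
    refine le_of_mul_le_mul_right ?_ hsum
    calc |K - μ l| * ∑ v, ‖U v l‖
        = ∑ v, ‖∑ u', ((if v = u' then (K : ℂ) else 0) - M v u') * U u' l‖ := by
          simp only [heig, norm_mul, Complex.norm_real, Real.norm_eq_abs, Finset.mul_sum]
      _ ≤ ∑ v, ∑ u', ‖(if v = u' then (K : ℂ) else 0) - M v u'‖ * ‖U u' l‖ :=
          Finset.sum_le_sum fun v _ => (norm_sum_le _ _).trans
            (Finset.sum_le_sum fun u' _ => (norm_mul_le _ _))
      _ = ∑ u', (∑ v, ‖(if v = u' then (K : ℂ) else 0) - M v u'‖) * ‖U u' l‖ := by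
          rw [Finset.sum_comm]
          exact Finset.sum_congr rfl fun u' _ => (Finset.sum_mul _ _ _).symm
      _ ≤ K * ∑ v, ‖U v l‖ := by
          rw [Finset.mul_sum]
          exact Finset.sum_le_sum fun u' _ =>
            mul_le_mul_of_nonneg_right (hcol u') (norm_nonneg _)
  have hrow : ∑ l, Complex.normSq (U u l) = 1 := by
    have := diag_decomp 0 hpow u
    simpa using this.symm
  rw [diag_decomp n hpow]
  calc ∑ l, μ l ^ n * Complex.normSq (U u l) ≤ ∑ l, K ^ n * Complex.normSq (U u l) := by
        refine Finset.sum_le_sum fun l _ => mul_le_mul_of_nonneg_right ?_ (Complex.normSq_nonneg _)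
        have h0 : 0 ≤ μ l := by linarith [le_abs_self (K - μ l), hge l]
        exact pow_le_pow_left₀ h0 (hle l) n
    _ = K ^ n := by rw [← Finset.mul_sum, hrow, mul_one]

/-- An even trace bound gives few eigenvalues above `L`. -/
theorem exists_few_rankOne {M : Matrix κ κ ℂ} (hM : M.IsHermitian) (K γ : ℝ) (hK : 0 ≤ K)
    (hγ : 0 < γ) (m : ℕ) (R : ℝ) (hR : ∑ u, ((M ^ (2 * m)) u u).re ≤ R) :
    ∃ (r : ℕ) (v : Fin r → κ → ℂ), (r : ℝ) * (K + γ) ^ (2 * m) ≤ R ∧
      ∀ f : κ → ℂ, 0 ≤ ∑ u, ∑ u', star (f u) *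
        ((if u = u' then ((K + γ : ℝ) : ℂ) else 0) - M u u' + ∑ l, v l u * star (v l u')) * f u' := by
  obtain ⟨μ, U, hpow, horth⟩ := exists_decomp hM
  let big := {l // K + γ < μ l}
  have : Fintype big := inferInstance
  let e := Fintype.equivFin big
  refine ⟨Fintype.card big, fun j u => (Real.sqrt (μ (e.symm j).1 - K) : ℂ) * U u (e.symm j).1,
    ?_, fun f => ?_⟩
  · refine le_trans ?_ hR
    simp only [diag_decomp (2 * m) hpow]
    rw [Finset.sum_comm]
    have hn1 : ∀ l, (∑ v, Complex.normSq (U v l) : ℝ) = 1 := by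
      intro l
      have := congrArg Complex.re (horth l l)
      simpa [Complex.re_sum, Complex.normSq_apply, Complex.mul_re] using this
    simp only [← Finset.mul_sum, hn1, mul_one]
    calc (Fintype.card big : ℝ) * (K + γ) ^ (2 * m) = ∑ _l : big, (K + γ) ^ (2 * m) := by simp
      _ ≤ ∑ l : big, μ l.1 ^ (2 * m) :=
          Finset.sum_le_sum fun l _ => pow_le_pow_left₀ (by linarith) l.2.le _
      _ ≤ ∑ l, μ l ^ (2 * m) := by
          rw [show ∑ l : big, μ l.1 ^ (2 * m) =
            ∑ l ∈ Finset.univ.filter (fun l => K + γ < μ l), μ l ^ (2 * m) from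
              (Finset.sum_subtype _ (by simp) fun l => μ l ^ (2 * m)).symm]
          exact Finset.sum_le_sum_of_subset_of_nonneg (Finset.filter_subset _ _)
            fun l _ _ => by rw [pow_mul]; positivity
  · have hker : ∀ u u', (if u = u' then ((K + γ : ℝ) : ℂ) else 0) - M u u' +
        ∑ j, (Real.sqrt (μ (e.symm j).1 - K) : ℂ) * U u (e.symm j).1 *
          star ((Real.sqrt (μ (e.symm j).1 - K) : ℂ) * U u' (e.symm j).1) =
        ∑ l, ((K + γ - μ l + if K + γ < μ l then μ l - K else 0 : ℝ) : ℂ) *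
          (U u l * star (U u' l)) := by
      intro u u'
      have h0 := hpow 0 u u'
      have h1 := hpow 1 u u'
      simp only [pow_zero, pow_one, one_mul, Matrix.one_apply] at h0 h1
      have h2 : ∑ j, (Real.sqrt (μ (e.symm j).1 - K) : ℂ) * U u (e.symm j).1 *
          star ((Real.sqrt (μ (e.symm j).1 - K) : ℂ) * U u' (e.symm j).1) =
          ∑ l, ((if K + γ < μ l then μ l - K else 0 : ℝ) : ℂ) * (U u l * star (U u' l)) := by
        rw [Equiv.sum_comp e.symm (fun l : big => (Real.sqrt (μ l.1 - K) : ℂ) * U u l.1 *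
          star ((Real.sqrt (μ l.1 - K) : ℂ) * U u' l.1)),
          ← Finset.sum_subtype (Finset.univ.filter fun l => K + γ < μ l) (by simp)
            (fun l => (Real.sqrt (μ l - K) : ℂ) * U u l * star ((Real.sqrt (μ l - K) : ℂ) * U u' l)),
          Finset.sum_filter]
        refine Finset.sum_congr rfl fun l _ => ?_
        split_ifs with h
        · have hs : (Real.sqrt (μ l - K) : ℂ) * (Real.sqrt (μ l - K) : ℂ) = ((μ l - K : ℝ) : ℂ) := by
            rw [← Complex.ofReal_mul, Real.mul_self_sqrt (by linarith)]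
          rw [star_mul', show star (Real.sqrt (μ l - K) : ℂ) = (Real.sqrt (μ l - K) : ℂ) from
            Complex.conj_ofReal _, ← hs]
          ring
        · simp
      rw [h2, h1, show (if u = u' then ((K + γ : ℝ) : ℂ) else 0) =
        ((K + γ : ℝ) : ℂ) * if u = u' then 1 else 0 by simp, h0, Finset.mul_sum,
        ← Finset.sum_sub_distrib, ← Finset.sum_add_distrib]
      refine Finset.sum_congr rfl fun l _ => ?_
      push_cast
      ring
    simp only [hker]
    rw [form_rankOne]
    refine Finset.sum_nonneg fun l _ => Complex.zero_le_real.2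
      (mul_nonneg ?_ (Complex.normSq_nonneg _))
    split_ifs <;> linarith

end Hermitian

/-! ### A finite quotient injective on a finite set of words -/

theorem exists_finite_quotient {α : Type} [DecidableEq α] (Z : Finset (FreeGroup α)) :
    ∃ (G : Type) (_ : Group G) (_ : Fintype G) (π : FreeGroup α →* G),
      ∀ z ∈ Z, π z = 1 → z = 1 := by
  classical
  let X : Finset (FreeGroup α) :=
    insert 1 (Z.biUnion fun z => z.toWord.tails.toFinset.image FreeGroup.mk)
  have hX1 : (1 : FreeGroup α) ∈ X := Finset.mem_insert_self _ _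
  have hσ : ∀ a : α, ∃ σ : Equiv.Perm X, ∀ x : X, ∀ h : FreeGroup.of a * x.1 ∈ X,
      σ x = ⟨FreeGroup.of a * x.1, h⟩ := by
    intro a
    let p : X → Prop := fun x => FreeGroup.of a * x.1 ∈ X
    let q : X → Prop := fun x => (FreeGroup.of a)⁻¹ * x.1 ∈ X
    let e : {x : X // p x} ≃ {x : X // q x} :=
      { toFun := fun x => ⟨⟨FreeGroup.of a * x.1.1, x.2⟩, by simp [q]⟩
        invFun := fun x => ⟨⟨(FreeGroup.of a)⁻¹ * x.1.1, x.2⟩, by simp [p]⟩
        left_inv := fun x => Subtype.ext (Subtype.ext (by simp))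
        right_inv := fun x => Subtype.ext (Subtype.ext (by simp)) }
    exact ⟨e.extendSubtype, fun x h => Equiv.extendSubtype_apply_of_mem e x h⟩
  choose σ hσ using hσ
  refine ⟨Equiv.Perm X, inferInstance, inferInstance, FreeGroup.lift σ, fun z hz h1 => ?_⟩
  have key : ∀ (w : List (α × Bool)) (hw : ∀ t ∈ w.tails, FreeGroup.mk t ∈ X),
      FreeGroup.lift σ (FreeGroup.mk w) ⟨1, hX1⟩ =
        ⟨FreeGroup.mk w, hw w ((List.mem_tails _ _).2 (List.suffix_refl w))⟩ := by
    intro w
    induction w with
    | nil =>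
      intro _
      simp [← FreeGroup.one_eq_mk]
    | cons c w ih =>
      intro hw
      have hw' : ∀ t ∈ w.tails, FreeGroup.mk t ∈ X := fun t ht => hw t
        ((List.mem_tails _ _).2 (((List.mem_tails _ _).1 ht).trans (List.suffix_cons c w)))
      have e : FreeGroup.mk (c :: w) = FreeGroup.mk [c] * FreeGroup.mk w := by
        rw [FreeGroup.mul_mk]; rfl
      have hc : FreeGroup.lift σ (FreeGroup.mk (c :: w)) ⟨1, hX1⟩ =
          FreeGroup.lift σ (FreeGroup.mk [c]) ⟨FreeGroup.mk w,
            hw' w ((List.mem_tails _ _).2 (List.suffix_refl w))⟩ := by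
        rw [e, map_mul, Equiv.Perm.mul_apply, ih hw']
      rw [hc]
      have hm := hw (c :: w) ((List.mem_tails _ _).2 (List.suffix_refl _))
      obtain ⟨a, b⟩ := c
      cases b
      · have ha : FreeGroup.mk [(a, false)] = (FreeGroup.of a)⁻¹ := rfl
        rw [ha, map_inv, FreeGroup.lift_apply_of, Equiv.Perm.inv_eq_iff_eq]
        rw [hσ a ⟨FreeGroup.mk ((a, false) :: w), hm⟩ (by
          show FreeGroup.of a * FreeGroup.mk ((a, false) :: w) ∈ X
          rw [e, ha, mul_inv_cancel_left]
          exact hw' w ((List.mem_tails _ _).2 (List.suffix_refl w)))]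
        exact Subtype.ext (by simp only [e, ha, mul_inv_cancel_left])
      · have ha : FreeGroup.mk [(a, true)] = FreeGroup.of a := rfl
        rw [ha, FreeGroup.lift_apply_of, hσ a _ (by
          show FreeGroup.of a * FreeGroup.mk w ∈ X
          rw [← ha, ← e]; exact hm)]
        exact Subtype.ext (by simp only [e, ha])
  have hmem : ∀ t ∈ z.toWord.tails, FreeGroup.mk t ∈ X := fun t ht =>
    Finset.mem_insert_of_mem (Finset.mem_biUnion.2
      ⟨z, hz, Finset.mem_image_of_mem _ (List.mem_toFinset.2 ht)⟩)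
  have h := key z.toWord hmem
  have h' := Subtype.ext_iff.1 h
  simp only [FreeGroup.mk_toWord, h1, Equiv.Perm.one_apply] at h'
  exact h'.symm

/-! ### The statement -/

/-- Positive finitely supported kernels on free groups have finite models. -/
theorem model : ModelStatement := by
  intro ι α _ _ _ S C hpos γ η hγ hη
  classical
  set K : ℝ := ∑ z ∈ S, ∑ i, ∑ j, ‖C z i j‖ with hKdef
  have hK : 0 ≤ K := Finset.sum_nonneg fun _ _ => Finset.sum_nonneg fun _ _ =>
    Finset.sum_nonneg fun _ _ => norm_nonneg _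
  set D := defectCoef S C K with hD
  set Sp := symSupp S with hSp
  -- positivity on finite windows
  have hwin : ∀ (B : Finset (FreeGroup α)) (f : ι × B → ℂ), 0 ≤ ∑ u : ι × B, ∑ u' : ι × B,
      star (f u) * coefKernel S C (MonoidHom.id _) (u.1, (u.2 : FreeGroup α))
        (u'.1, (u'.2 : FreeGroup α)) * f u' := by
    intro B f
    set v : ι × FreeGroup α → ℂ := fun u => if h : u.2 ∈ B then f (u.1, ⟨u.2, h⟩) else 0 with hv
    have h := hpos ((Finset.univ : Finset ι) ×ˢ B) v
    simp only [Finset.sum_product] at h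
    simp only [Fintype.sum_prod_type]
    refine le_of_le_of_eq h (Finset.sum_congr rfl fun i _ => ?_)
    rw [← Finset.sum_coe_sort B]
    refine Finset.sum_congr rfl fun g _ => Finset.sum_congr rfl fun j _ => ?_
    rw [← Finset.sum_coe_sort B]
    refine Finset.sum_congr rfl fun g' _ => ?_
    simp [hv]
  -- the symmetry of the coefficients
  have hsym : ∀ z i j, star (D z i j) = D z⁻¹ j i := by
    intro z i j
    have hk : ∀ (w : FreeGroup α) (i j : ι),
        coefKernel S C (MonoidHom.id _) (i, w) (j, 1) = if w ∈ S then C w i j else 0 := by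
      intro w i j
      simp [coefKernel]
    have hk' : ∀ (w : FreeGroup α) (i j : ι),
        coefKernel S C (MonoidHom.id _) (i, 1) (j, w) = if w⁻¹ ∈ S then C w⁻¹ i j else 0 := by
      intro w i j
      simp [coefKernel]
    have h := kernel_star (fun u u' : ι × ({1, z} : Finset (FreeGroup α)) =>
      coefKernel S C (MonoidHom.id _) (u.1, (u.2 : FreeGroup α)) (u'.1, (u'.2 : FreeGroup α)))
      (hwin _) (i, ⟨z, by simp⟩) (j, ⟨1, by simp⟩)
    simp only [hk, hk'] at h
    simp only [hD, defectCoef, star_sub, h, apply_ite star, star_zero, Complex.star_def,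
      Complex.conj_ofReal, inv_eq_one, eq_comm (a := i)]
  -- the value at the unit of a power
  have hdiag : ∀ n i, (powCoef Sp D n 1 i i).re ≤ K ^ n := by
    intro n i
    set B := powSupp Sp n with hB
    have h1 : (1 : FreeGroup α) ∈ Sp := Finset.mem_insert_self _ _
    set M : Matrix (ι × B) (ι × B) ℂ := Matrix.of fun u u' => coefKernel Sp D (MonoidHom.id _)
      (u.1, (u.2 : FreeGroup α)) (u'.1, (u'.2 : FreeGroup α)) with hM
    have hMh : M.IsHermitian := by
      ext u u'
      simp only [Matrix.conjTranspose_apply, hM, Matrix.of_apply]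
      exact coefKernel_star (symSupp_inv S) hsym _ _ _
    have heq : ∀ u u' : ι × B, (if u = u' then (K : ℂ) else 0) - M u u' =
        coefKernel S C (MonoidHom.id _) (u.1, (u.2 : FreeGroup α))
          (u'.1, (u'.2 : FreeGroup α)) := by
      intro u u'
      simp only [hM, Matrix.of_apply, hD, hSp, coefKernel_defect, Prod.ext_iff, Subtype.ext_iff]
      ring
    have hpow : ∀ k, k ≤ n → ∀ (u : ι × B) (j : ι),
        (M ^ k) u (j, ⟨1, one_mem_powSupp h1 n⟩) =
          coefKernel (powSupp Sp k) (powCoef Sp D k) (MonoidHom.id _)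
            (u.1, (u.2 : FreeGroup α)) (j, 1) := by
      intro k
      induction k with
      | zero =>
        intro _ u j
        simp only [pow_zero, Matrix.one_apply, coefKernel, powSupp, powCoef, Finset.sum_singleton,
          MonoidHom.id_apply, Prod.ext_iff, Subtype.ext_iff, inv_one, mul_one]
        by_cases h : u.1 = j <;> by_cases h' : (u.2 : FreeGroup α) = 1 <;> simp [h, h', eq_comm]
      | succ k ih =>
        intro hk u j
        rw [pow_succ', Matrix.mul_apply, Fintype.sum_prod_type]
        simp only [ih (by omega)]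
        simp only [hM, Matrix.of_apply]
        rw [Finset.sum_congr rfl fun i' _ => Finset.sum_coe_sort B fun g =>
          coefKernel Sp D (MonoidHom.id _) (u.1, (u.2 : FreeGroup α)) (i', g) *
            coefKernel (powSupp Sp k) (powCoef Sp D k) (MonoidHom.id _) (i', g) (j, 1)]
        exact coefKernel_mul Sp (powSupp Sp k) D (powCoef Sp D k) _ B _ _ fun b hb => by
          simpa using powSupp_subset h1 (show k ≤ n by omega) hb
    have hcol : ∀ u', ∑ u, ‖(if u = u' then (K : ℂ) else 0) - M u u'‖ ≤ K := by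
      intro u'
      simp only [heq]
      rw [Fintype.sum_prod_type, Finset.sum_congr rfl fun i' _ => Finset.sum_coe_sort B fun g =>
        ‖coefKernel S C (MonoidHom.id _) (i', g) (u'.1, (u'.2 : FreeGroup α))‖]
      exact sum_norm_coefKernel_le S C _ B _
    have h := re_pow_diag_le hMh K (fun f => by simp only [heq]; exact hwin B f) hcol
      (i, ⟨1, one_mem_powSupp h1 n⟩) n
    rw [hpow n le_rfl] at h
    simpa [coefKernel, one_mem_powSupp h1 n] using h
  -- the exponent
  obtain ⟨m, hm⟩ : ∃ m : ℕ, (Fintype.card ι : ℝ) * (K / (K + γ)) ^ (2 * m) ≤ η := by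
    have hq : (K / (K + γ)) ^ 2 < 1 := by
      rw [pow_lt_one_iff_of_nonneg (by positivity) two_ne_zero, div_lt_one (by linarith)]
      linarith
    obtain ⟨m, hm⟩ := exists_pow_lt_of_lt_one (y := (K / (K + γ)) ^ 2)
      (show (0 : ℝ) < η / (Fintype.card ι + 1) by positivity) hq
    refine ⟨m, ?_⟩
    rw [← pow_mul, lt_div_iff₀ (by positivity)] at hm
    nlinarith [show (0 : ℝ) ≤ (K / (K + γ)) ^ (2 * m) by positivity]
  obtain ⟨G, _, _, π, hπ⟩ := exists_finite_quotient (powSupp Sp (2 * m))
  have hMh : (kerMat Sp D π).IsHermitian := by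
    ext u u'
    simp only [Matrix.conjTranspose_apply, kerMat, Matrix.of_apply]
    exact coefKernel_star (symSupp_inv S) hsym _ _ _
  have htr : ∑ u, ((kerMat Sp D π ^ (2 * m)) u u).re ≤
      Fintype.card G * Fintype.card ι * K ^ (2 * m) := by
    have h1 : (1 : FreeGroup α) ∈ powSupp Sp (2 * m) :=
      one_mem_powSupp (Finset.mem_insert_self _ _) _
    have hu : ∀ u : ι × G,
        ((kerMat Sp D π ^ (2 * m)) u u).re ≤ K ^ (2 * m) := by
      intro u
      rw [kerMat_pow, kerMat, Matrix.of_apply, coefKernel, Finset.sum_eq_single_of_mem 1 h1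
        fun z hz hne => if_neg fun e => hne (hπ z hz (by rw [e, mul_inv_cancel]))]
      rw [if_pos (by simp)]
      exact hdiag _ _
    refine (Finset.sum_le_card_nsmul _ _ _ fun u _ => hu u).trans (le_of_eq ?_)
    rw [Finset.card_univ, Fintype.card_prod, nsmul_eq_mul]
    push_cast
    ring
  obtain ⟨r, v, hr, hv⟩ := exists_few_rankOne hMh K γ hK hγ m _ htr
  refine ⟨G, inferInstance, inferInstance, inferInstance, π, r, v, ?_, fun f => ?_⟩
  · have hpos' : (0 : ℝ) < (K + γ) ^ (2 * m) := by positivity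
    have : (r : ℝ) ≤ Fintype.card G * (Fintype.card ι * (K / (K + γ)) ^ (2 * m)) := by
      rw [div_pow, mul_div, mul_div, le_div_iff₀ hpos']
      linarith
    calc (r : ℝ) ≤ _ := this
      _ ≤ (Fintype.card G : ℝ) * η := mul_le_mul_of_nonneg_left hm (Nat.cast_nonneg _)
      _ = η * (Fintype.card G : ℝ) := mul_comm _ _
  · refine le_of_le_of_eq (hv f) (Finset.sum_congr rfl fun u _ =>
      Finset.sum_congr rfl fun u' _ => ?_)
    simp only [kerMat, Matrix.of_apply, hD, hSp, coefKernel_defect]
    congr 2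
    by_cases h : u = u'
    · simp only [h, if_true]
      push_cast
      ring
    · simp only [h, if_false]
      ring

end Vale.Agent.P095.Compare
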