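import Vale.Agent.P095.Compare.Specs

/-!
# P095: the theorem of Cuntz and Pedersen

`a ≪ b` means that `a` is up to `d` a sum `∑ x* x` with `∑ x x* ≤ b + d`, for every `d > 0`.
This relation is additive, homogeneous and transitive.  If `τ a ≤ t` for all tracial states,
Hahn–Banach gives `a + Y₁ ≤ t + d + Y₂` with `Y₂ ≪ Y₁`, and iterating gives `a ≪ t + 2 d`.
-/

noncomputable section

namespace Vale.Agent.P095.Compare

open Vale.Agent.P095.Gamma

open scoped ComplexOrder

universe u

variable {A : Type u} [CStarAlgebra A] [PartialOrder A] [StarOrderedRing A]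

/-- Cuntz–Pedersen subordination. -/
def SubTr (a b : A) : Prop :=
  ∀ d : ℝ, 0 < d → ∃ (n : ℕ) (x : Fin n → A),
    ‖∑ i, star (x i) * x i - a‖ ≤ d ∧ ∑ i, x i * star (x i) ≤ b + algebraMap ℝ A d

lemma algebraMap_nonneg' {d : ℝ} (hd : 0 ≤ d) : (0 : A) ≤ algebraMap ℝ A d := by
  rw [Algebra.algebraMap_eq_smul_one]
  exact smul_nonneg hd zero_le_one

lemma algebraMap_mono' {d e : ℝ} (hd : d ≤ e) : algebraMap ℝ A d ≤ algebraMap ℝ A e := by
  rw [← sub_nonneg, ← map_sub]
  exact algebraMap_nonneg' (sub_nonneg.2 hd)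

namespace SubTr

/-- A single element: `x* x ≪ b` if `x x* ≤ b`. -/
lemma of_element {a b : A} (x : A) (h1 : star x * x = a) (h2 : x * star x ≤ b) : SubTr a b :=
  fun d hd => ⟨1, fun _ => x, by simp [h1, hd.le],
    by simpa using h2.trans (le_add_of_nonneg_right (algebraMap_nonneg' hd.le))⟩

lemma of_le {a b : A} (ha : 0 ≤ a) (hab : a ≤ b) : SubTr a b := by
  have hs : star (CFC.sqrt a) = CFC.sqrt a :=
    (IsSelfAdjoint.of_nonneg (CFC.sqrt_nonneg a)).star_eq
  refine of_element (CFC.sqrt a) ?_ ?_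
  · rw [hs, CFC.sqrt_mul_sqrt_self a ha]
  · rwa [hs, CFC.sqrt_mul_sqrt_self a ha]

lemma mono_right {a b c : A} (h : SubTr a b) (hbc : b ≤ c) : SubTr a c := fun d hd => by
  obtain ⟨n, x, h1, h2⟩ := h d hd
  exact ⟨n, x, h1, h2.trans (add_le_add hbc le_rfl)⟩

lemma add {a b a' b' : A} (h : SubTr a b) (h' : SubTr a' b') : SubTr (a + a') (b + b') := by
  intro d hd
  obtain ⟨n, x, h1, h2⟩ := h (d / 2) (half_pos hd)
  obtain ⟨m, z, h3, h4⟩ := h' (d / 2) (half_pos hd)
  refine ⟨n + m, Fin.append x z, ?_, ?_⟩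
  · rw [Fin.sum_univ_add]
    simp only [Fin.append_left, Fin.append_right]
    rw [add_sub_add_comm]
    linarith [norm_add_le (∑ i, star (x i) * x i - a) (∑ i, star (z i) * z i - a')]
  · rw [Fin.sum_univ_add]
    simp only [Fin.append_left, Fin.append_right]
    refine (add_le_add h2 h4).trans_eq ?_
    rw [add_add_add_comm, ← map_add, add_halves]

lemma smul {a b : A} (h : SubTr a b) {c : ℝ} (hc : 0 < c) : SubTr (c • a) (c • b) := by
  intro d hd
  obtain ⟨n, x, h1, h2⟩ := h (d / c) (div_pos hd hc)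
  have hss : ∀ u v : A, (Real.sqrt c • u) * (Real.sqrt c • v) = c • (u * v) := fun u v => by
    rw [smul_mul_assoc, mul_smul_comm, smul_smul, Real.mul_self_sqrt hc.le]
  refine ⟨n, fun i => Real.sqrt c • x i, ?_, ?_⟩
  · simp only [star_smul, star_trivial, hss, ← Finset.smul_sum, ← smul_sub, norm_smul,
      Real.norm_eq_abs, abs_of_pos hc]
    calc c * ‖∑ i, star (x i) * x i - a‖ ≤ c * (d / c) := mul_le_mul_of_nonneg_left h1 hc.le
      _ = d := by field_simp
  · simp only [star_smul, star_trivial, hss, ← Finset.smul_sum]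
    refine (smul_le_smul_of_nonneg_left h2 hc.le).trans_eq ?_
    rw [smul_add, Algebra.algebraMap_eq_smul_one, Algebra.algebraMap_eq_smul_one, smul_smul,
      mul_div_cancel₀ d hc.ne']

lemma trans {a b c : A} (hab : SubTr a b) (hbc : SubTr b c) : SubTr a c := by
  intro d hd
  obtain ⟨n, x, hx1, hx2⟩ := hab (d / 4) (by positivity)
  obtain ⟨m, y₁, hy1, hy2⟩ := hbc (d / 4) (by positivity)
  set e := d / 4 with he
  have he0 : 0 < e := by positivity
  let y : Fin (1 + m) → A := Fin.append (fun _ => algebraMap ℝ A (Real.sqrt (2 * e))) y₁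
  have hy0 : star (algebraMap ℝ A (Real.sqrt (2 * e))) = algebraMap ℝ A (Real.sqrt (2 * e)) :=
    (IsSelfAdjoint.algebraMap A (IsSelfAdjoint.all _)).star_eq
  have hy0' : algebraMap ℝ A (Real.sqrt (2 * e)) * algebraMap ℝ A (Real.sqrt (2 * e)) =
      algebraMap ℝ A (2 * e) := by
    rw [← map_mul, Real.mul_self_sqrt (by positivity)]
  set Y := ∑ j, star (y j) * y j with hY
  have hYeq : Y = algebraMap ℝ A (2 * e) + ∑ j, star (y₁ j) * y₁ j := by
    simp only [hY, y, Fin.sum_univ_add, Fin.append_left, Fin.append_right, Finset.sum_const,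
      Finset.card_univ, Fintype.card_fin, one_smul, hy0, hy0']
  have hY' : ∑ j, y j * star (y j) ≤ c + algebraMap ℝ A d := by
    simp only [y, Fin.sum_univ_add, Fin.append_left, Fin.append_right, Finset.sum_const,
      Finset.card_univ, Fintype.card_fin, one_smul, hy0, hy0']
    refine (add_le_add le_rfl hy2).trans ?_
    rw [add_left_comm, ← map_add]
    exact add_le_add le_rfl (algebraMap_mono' (by linarith [he]))
  set s := ∑ i, x i * star (x i) with hs
  have hYlow : algebraMap ℝ A (2 * e) ≤ Y := by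
    rw [hYeq]
    exact le_add_of_nonneg_right (Finset.sum_nonneg fun j _ => star_mul_self_nonneg _)
  have hsY : s ≤ Y := by
    refine hx2.trans ?_
    have h1 : b ≤ ∑ j, star (y₁ j) * y₁ j + algebraMap ℝ A e := by
      rw [← sub_le_iff_le_add']
      have hb : IsSelfAdjoint (b - ∑ j, star (y₁ j) * y₁ j) := by
        have hbs : IsSelfAdjoint b := by
          have := (hx2 : s ≤ b + algebraMap ℝ A e)
          have h0 : (0 : A) ≤ s := Finset.sum_nonneg fun i _ => mul_star_self_nonneg _
          simpa using (IsSelfAdjoint.of_nonneg (h0.trans this)).sub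
            (IsSelfAdjoint.algebraMap A (IsSelfAdjoint.all e))
        exact hbs.sub (IsSelfAdjoint.of_nonneg (Finset.sum_nonneg fun j _ => star_mul_self_nonneg _))
      refine hb.le_algebraMap_norm_self.trans (algebraMap_mono' ?_)
      rw [norm_sub_rev]
      exact hy1
    refine (add_le_add h1 le_rfl).trans_eq ?_
    rw [hYeq, add_assoc, ← map_add, add_comm, two_mul]
  have hYs : IsSelfAdjoint Y := IsSelfAdjoint.of_nonneg ((algebraMap_nonneg' (by positivity)).trans hYlow)
  have hspec : ∀ r ∈ spectrum ℝ Y, 0 < r := fun r hr =>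
    lt_of_lt_of_le (by positivity) ((algebraMap_le_iff_le_spectrum hYs).1 hYlow r hr)
  set f : ℝ → ℝ := fun r => (Real.sqrt r)⁻¹
  have hfc : ContinuousOn f (spectrum ℝ Y) := Real.continuous_sqrt.continuousOn.inv₀ fun r hr =>
    (Real.sqrt_pos.2 (hspec r hr)).ne'
  set W := cfc f Y
  have hW0 : 0 ≤ W := cfc_nonneg fun r _ => inv_nonneg.2 (Real.sqrt_nonneg r)
  have hWs : star W = W := (IsSelfAdjoint.of_nonneg hW0).star_eq
  have hWYW : W * Y * W = 1 := by
    calc W * Y * W = cfc f Y * cfc (fun r => r) Y * cfc f Y := by rw [cfc_id' ℝ Y hYs]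
      _ = cfc (fun r => f r * r * f r) Y := by
        rw [cfc_mul (fun r => f r * r) f Y (hfc.mul continuousOn_id) hfc,
          cfc_mul f (fun r => r) Y hfc continuousOn_id]
      _ = cfc (fun _ : ℝ => (1 : ℝ)) Y := cfc_congr fun r hr => by
        have h := Real.sqrt_pos.2 (hspec r hr)
        simp only [f]
        field_simp
        rw [Real.sq_sqrt (hspec r hr).le]
      _ = 1 := cfc_const_one ℝ Y hYs
  let z : Fin (n * (1 + m)) → A := fun k =>
    y (finProdFinEquiv.symm k).2 * W * x (finProdFinEquiv.symm k).1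
  refine ⟨n * (1 + m), z, ?_, ?_⟩
  · have : ∑ k, star (z k) * z k = ∑ i, star (x i) * x i := by
      rw [← finProdFinEquiv.sum_comp, Fintype.sum_prod_type]
      refine Finset.sum_congr rfl fun i _ => ?_
      calc ∑ j, star (z (finProdFinEquiv (i, j))) * z (finProdFinEquiv (i, j))
          = ∑ j, star (x i) * (W * (star (y j) * y j) * W) * x i := by
            refine Finset.sum_congr rfl fun j _ => ?_
            simp only [z, Equiv.symm_apply_apply, star_mul, hWs, mul_assoc]
        _ = star (x i) * (W * Y * W) * x i := by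
            rw [hY, Finset.mul_sum, Finset.sum_mul, Finset.mul_sum, Finset.sum_mul]
        _ = _ := by rw [hWYW, mul_one]
    rw [this]
    exact hx1.trans (by linarith [he])
  · have hW : W * s * W ≤ 1 := (conjugate_le_conjugate_of_nonneg hsY hW0).trans_eq hWYW
    refine le_trans ?_ hY'
    rw [← finProdFinEquiv.sum_comp, Fintype.sum_prod_type, Finset.sum_comm]
    refine Finset.sum_le_sum fun j _ => ?_
    calc ∑ i, z (finProdFinEquiv (i, j)) * star (z (finProdFinEquiv (i, j)))
        = ∑ i, y j * (W * (x i * star (x i)) * W) * star (y j) := by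
          refine Finset.sum_congr rfl fun i _ => ?_
          simp only [z, Equiv.symm_apply_apply, star_mul, hWs, mul_assoc]
      _ = y j * (W * s * W) * star (y j) := by
          rw [hs, Finset.mul_sum, Finset.sum_mul, Finset.mul_sum, Finset.sum_mul]
      _ ≤ y j * 1 * star (y j) := star_right_conjugate_le_conjugate hW _
      _ = y j * star (y j) := by rw [mul_one]

end SubTr

/-- Sums of commutators `y y* - y* y`, plus positive elements. -/
def traceCone (A : Type u) [CStarAlgebra A] [PartialOrder A] : Set A :=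
  {z | ∃ (n : ℕ) (y : Fin n → A), ∑ i, (y i * star (y i) - star (y i) * y i) ≤ z}

lemma convex_traceCone : Convex ℝ (traceCone A) := by
  rintro u ⟨n, y, hy⟩ v ⟨m, y', hy'⟩ p q hp hq -
  refine ⟨n + m, Fin.append (fun i => Real.sqrt p • y i) (fun i => Real.sqrt q • y' i), ?_⟩
  simp only [Fin.sum_univ_add, Fin.append_left, Fin.append_right, star_smul, star_trivial,
    smul_mul_assoc, mul_smul_comm, smul_smul, Real.mul_self_sqrt hp, Real.mul_self_sqrt hq,
    ← smul_sub, ← Finset.smul_sum]
  exact add_le_add (smul_le_smul_of_nonneg_left hy hp) (smul_le_smul_of_nonneg_left hy' hq)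

lemma traceCone_smul {z : A} (hz : z ∈ traceCone A) {r : ℝ} (hr : 0 ≤ r) :
    r • z ∈ traceCone A := by
  obtain ⟨n, y, hy⟩ := hz
  refine ⟨n, fun i => Real.sqrt r • y i, ?_⟩
  simp only [star_smul, star_trivial, smul_mul_assoc, mul_smul_comm, smul_smul,
    Real.mul_self_sqrt hr, ← smul_sub, ← Finset.smul_sum]
  exact smul_le_smul_of_nonneg_left hy hr

/-- A functional non-negative on the cone is a multiple of a trace. -/
lemma exists_trace_of_functional (g : A →ₗ[ℝ] ℝ) (hg : ∀ z ∈ traceCone A, 0 ≤ g z) (a : A)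
    (ha : IsSelfAdjoint a) (hne : g a ≠ 0) :
    0 < g 1 ∧ ∃ τ : A →ₗ[ℂ] ℂ, IsTrace A τ ∧ (τ a).re = g a / g 1 := by
  have hpos : ∀ p : A, 0 ≤ p → 0 ≤ g p := fun p hp => hg p ⟨0, Fin.elim0, by simpa using hp⟩
  have hcomm : ∀ y : A, g (y * star y) = g (star y * y) := by
    have : ∀ y : A, g (star y * y) ≤ g (y * star y) := fun y => by
      have := hg (y * star y - star y * y) ⟨1, fun _ => y, by simp⟩
      rw [map_sub] at this
      linarith
    intro y
    exact le_antisymm (by simpa using this (star y)) (this y)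
  have hg1 : 0 < g 1 := by
    refine lt_of_le_of_ne (hpos 1 zero_le_one) fun h0 => hne ?_
    have h1 := hpos _ (sub_nonneg.2 ha.le_algebraMap_norm_self)
    have h2 := hpos _ (sub_nonneg.2 ha.neg_algebraMap_norm_le_self)
    simp only [Algebra.algebraMap_eq_smul_one, map_sub, map_neg, map_smul, ← h0, smul_zero,
      neg_zero, sub_zero, zero_sub] at h1 h2
    linarith
  refine ⟨hg1, ?_⟩
  let s : A → ℝ := fun x => g ((1 / 2 : ℝ) • (x + star x)) / g 1
  have s_add : ∀ x y, s (x + y) = s x + s y := fun x y => by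
    simp only [s, star_add, smul_add, map_add]
    ring
  have s_smul : ∀ (r : ℝ) (x : A), s (r • x) = r * s x := fun r x => by
    simp only [s, star_smul, star_trivial, ← smul_add, map_smul, smul_eq_mul]
    ring
  let τ : A →ₗ[ℂ] ℂ :=
    { toFun := fun x => (s x : ℂ) - Complex.I * s (Complex.I • x)
      map_add' := fun x y => by
        simp only [smul_add, s_add, Complex.ofReal_add]
        ring
      map_smul' := fun c x => by
        have e1 : c • x = c.re • x + c.im • (Complex.I • x) := by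
          rw [← Complex.coe_smul, ← Complex.coe_smul c.im, smul_smul, ← add_smul,
            Complex.re_add_im]
        have e2 : Complex.I • (c • x) = c.re • (Complex.I • x) + (-c.im) • x := by
          rw [← Complex.coe_smul, ← Complex.coe_smul (-c.im), smul_smul, smul_smul, ← add_smul]
          congr 1
          apply Complex.ext <;> simp
        simp only [RingHom.id_apply, smul_eq_mul, e2]
        rw [e1, s_add, s_add, s_smul, s_smul, s_smul, s_smul]
        apply Complex.ext <;> simp <;> ring }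
  have hsa : ∀ p : A, IsSelfAdjoint p → τ p = ((g p / g 1 : ℝ) : ℂ) := fun p hp => by
    have h1 : s p = g p / g 1 := by
      simp only [s, hp.star_eq, ← two_smul ℝ p, smul_smul]
      norm_num
    have h2 : s (Complex.I • p) = 0 := by simp [s, hp.star_eq]
    show (s p : ℂ) - Complex.I * s (Complex.I • p) = _
    rw [h2, h1]
    simp
  refine ⟨τ, ⟨fun x => ?_, ?_, ?_⟩, by rw [hsa a ha, Complex.ofReal_re]⟩
  · rw [hsa _ (IsSelfAdjoint.star_mul_self x)]
    exact_mod_cast div_nonneg (hpos _ (star_mul_self_nonneg x)) hg1.le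
  · rw [hsa 1 (IsSelfAdjoint.one A), div_self hg1.ne', Complex.ofReal_one]
  · have hq : ∀ z : A, τ (star z * z) = τ (z * star z) := fun z => by
      rw [hsa _ (IsSelfAdjoint.star_mul_self z), hsa _ (IsSelfAdjoint.mul_star_self z), hcomm z]
    intro u v
    have h1 := hq (star u + v)
    have h2 := hq (star u + Complex.I • v)
    simp only [star_add, star_star, star_smul, Complex.star_def, Complex.conj_I, add_mul, mul_add,
      smul_mul_assoc, mul_smul_comm, map_add, map_smul, smul_eq_mul] at h1 h2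
    have h3 := hq u
    have h4 := hq v
    linear_combination (1 / 2 : ℂ) * h1 - (Complex.I / 2) * h2 +
      (1 / 2 : ℂ) * (1 - Complex.I) * h3 - (1 / 2 : ℂ) * (1 - Complex.I) * h4 +
      (1 / 2 : ℂ) * (τ (u * v) - τ (v * u) + τ (star u * star v) - τ (star v * star u) +
        Complex.I * (τ (v * star v) - τ (star v * v))) * Complex.I_sq

/-- Hahn–Banach: the trace bound gives an inequality modulo commutators. -/
theorem exists_commutators (a : A) (ha : 0 ≤ a) (t : ℝ)
    (hτ : ∀ τ : A →ₗ[ℂ] ℂ, IsTrace A τ → (τ a).re ≤ t) (d : ℝ) (hd : 0 < d) :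
    ∃ (n : ℕ) (y : Fin n → A),
      a + ∑ i, y i * star (y i) ≤ algebraMap ℝ A (t + d) + ∑ i, star (y i) * y i := by
  set w := algebraMap ℝ A (t + d / 2) - a with hw
  have hwcl : w ∈ closure (traceCone A) := by
    by_contra hnot
    obtain ⟨f, u, hf, hfu⟩ :=
      geometric_hahn_banach_closed_point convex_traceCone.closure isClosed_closure hnot
    have h0 : (0 : A) ∈ traceCone A := ⟨0, Fin.elim0, by simp⟩
    have hu : 0 < u := by simpa using hf 0 (subset_closure h0)
    have hle : ∀ z ∈ traceCone A, f z ≤ 0 := by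
      intro z hz
      by_contra hpos
      push Not at hpos
      have := hf _ (subset_closure (traceCone_smul hz (div_nonneg hu.le hpos.le)))
      rw [map_smul, smul_eq_mul, div_mul_cancel₀ u hpos.ne'] at this
      exact lt_irrefl u this
    have hws : IsSelfAdjoint w :=
      (IsSelfAdjoint.algebraMap A (IsSelfAdjoint.all _)).sub (IsSelfAdjoint.of_nonneg ha)
    obtain ⟨hg1, τ, hτ', hτw⟩ := exists_trace_of_functional (-f.toLinearMap)
      (fun z hz => by simpa using hle z hz) w hws (by simp; linarith)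
    have hlt : (τ w).re < 0 := by
      rw [hτw]
      exact div_neg_of_neg_of_pos (by simp; linarith) hg1
    have heq : (τ w).re = t + d / 2 - (τ a).re := by
      have : algebraMap ℝ A (t + d / 2) = ((t + d / 2 : ℝ) : ℂ) • (1 : A) := by
        rw [Complex.coe_smul, Algebra.algebraMap_eq_smul_one]
      rw [hw, map_sub, this, map_smul, hτ'.map_one]
      simp
    linarith [hτ τ hτ']
  obtain ⟨z, hz, hdist⟩ := Metric.mem_closure_iff.1 hwcl (d / 2) (half_pos hd)
  obtain ⟨n, y, hy⟩ := hz
  refine ⟨n, y, ?_⟩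
  have hD : IsSelfAdjoint (∑ i, (y i * star (y i) - star (y i) * y i)) :=
    isSelfAdjoint_sum _ fun i _ => (IsSelfAdjoint.mul_star_self _).sub (IsSelfAdjoint.star_mul_self _)
  have hzs : IsSelfAdjoint z := by
    have := (IsSelfAdjoint.of_nonneg (sub_nonneg.2 hy)).add hD
    simpa using this
  have hzw : z - w ≤ algebraMap ℝ A (d / 2) := by
    refine (hzs.sub ((IsSelfAdjoint.algebraMap A (IsSelfAdjoint.all _)).sub
      (IsSelfAdjoint.of_nonneg ha))).le_algebraMap_norm_self.trans (algebraMap_mono' ?_)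
    rw [norm_sub_rev, ← dist_eq_norm]
    exact hdist.le
  have h := (sub_le_iff_le_add'.1 hzw)
  have h2 := hy.trans h
  rw [Finset.sum_sub_distrib, hw, sub_le_iff_le_add] at h2
  calc a + ∑ i, y i * star (y i)
      ≤ a + (algebraMap ℝ A (t + d / 2) - a + algebraMap ℝ A (d / 2) +
          ∑ i, star (y i) * y i) := add_le_add le_rfl h2
    _ = _ := by
      rw [show t + d = (t + d / 2) + d / 2 by ring, map_add (algebraMap ℝ A) (t + d / 2)]
      abel

/-- Cuntz and Pedersen. -/
theorem traceSum : TraceStatement.{u} := by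
  intro A _ _ _ a ha t ht hτ d hd
  obtain ⟨n, y, hy⟩ := exists_commutators a ha t hτ (d / 4) (by positivity)
  set Y₁ := ∑ i, y i * star (y i) with hY₁
  set Y₂ := ∑ i, star (y i) * y i with hY₂
  have hY₁0 : 0 ≤ Y₁ := Finset.sum_nonneg fun i _ => mul_star_self_nonneg _
  have h21 : SubTr Y₂ Y₁ := fun e he => ⟨n, y, by simp [hY₂, he.le],
    le_add_of_nonneg_right (algebraMap_nonneg' he.le)⟩
  set T := algebraMap ℝ A (t + d / 4) with hT
  have hT0 : 0 ≤ T := algebraMap_nonneg' (by linarith)
  have hiter : ∀ k : ℕ, SubTr ((k : ℝ) • a + Y₁) ((k : ℝ) • T + Y₁) := by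
    intro k
    induction k with
    | zero => simpa using SubTr.of_le hY₁0 le_rfl
    | succ k ih =>
      have hkT : 0 ≤ (k : ℝ) • T := smul_nonneg k.cast_nonneg hT0
      have h1 : SubTr (a + ((k : ℝ) • a + Y₁)) (a + ((k : ℝ) • T + Y₁)) :=
        (SubTr.of_le ha le_rfl).add ih
      have h2 : SubTr (a + ((k : ℝ) • T + Y₁)) ((T + (k : ℝ) • T) + Y₂) := by
        refine SubTr.of_le (add_nonneg ha (add_nonneg hkT hY₁0)) ?_
        calc a + ((k : ℝ) • T + Y₁) = (a + Y₁) + (k : ℝ) • T := by abel
          _ ≤ (T + Y₂) + (k : ℝ) • T := add_le_add hy le_rfl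
          _ = _ := by abel
      have h3 : SubTr ((T + (k : ℝ) • T) + Y₂) ((T + (k : ℝ) • T) + Y₁) :=
        (SubTr.of_le (add_nonneg hT0 hkT) le_rfl).add h21
      have := (h1.trans h2).trans h3
      convert this using 1 <;> push_cast <;> rw [add_smul, one_smul] <;> abel
  obtain ⟨k, hk⟩ := exists_nat_gt (4 * ‖Y₁‖ / d)
  have hk0 : (0 : ℝ) < k := lt_of_le_of_lt (by positivity) hk
  have hka : SubTr ((k : ℝ) • a) ((k : ℝ) • (T + algebraMap ℝ A (d / 4))) := by
    refine ((SubTr.of_le (smul_nonneg hk0.le ha) (le_add_of_nonneg_right hY₁0)).trans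
      (hiter k)).mono_right ?_
    rw [smul_add]
    refine add_le_add le_rfl ?_
    refine (IsSelfAdjoint.of_nonneg hY₁0).le_algebraMap_norm_self.trans ?_
    rw [Algebra.algebraMap_eq_smul_one, Algebra.algebraMap_eq_smul_one, smul_smul]
    refine smul_le_smul_of_nonneg_right ?_ zero_le_one
    rw [div_lt_iff₀ hd] at hk
    linarith
  have hfin := hka.smul (inv_pos.2 hk0)
  rw [smul_smul, smul_smul, inv_mul_cancel₀ hk0.ne', one_smul, one_smul] at hfin
  obtain ⟨m, x, hx1, hx2⟩ := hfin (d / 2) (half_pos hd)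
  refine ⟨m, x, hx1.trans (by linarith), hx2.trans ?_⟩
  rw [hT, ← map_add, ← map_add]
  exact algebraMap_mono' (by linarith)

end Vale.Agent.P095.Compare
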