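import Vale.Agent.P095.Compare.Main
import Vale.Agent.P095.Compare.Trace
import Vale.Agent.P095.Compare.Free
import Vale.Agent.P095.Compare.Model
import Vale.Agent.P095.Compare.Amplify
import Vale.Agent.P095.Compare.Absorb

/-!
# P095: comparison without quasitraces, the closed theorem
-/

noncomputable section

namespace Vale.Agent.P095.Compare

universe u

/-- Comparison in simple nuclear algebras with a central dimension drop, with no hypothesis on
quasitraces or on strict comparison. -/
theorem compareStatement : CompareStatement.{u} :=
  compare_of (amplify_of traceSum free model) absorb

end Vale.Agent.P095.Compare
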