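import Vale.Agent.P095.Compare.Specs

/-!
# P095: comparison without quasitraces, assembly of the two halves
-/

noncomputable section

namespace Vale.Agent.P095.Compare

open Vale.Agent.P101 Vale.Agent.P095.Gamma Vale.Agent.P095.Full

universe u

theorem posCut_nonneg (η t : ℝ) : 0 ≤ posCut η t := le_max_right _ _

/-- A positive element in the sense of `IsPos` from the spectral order. -/
theorem isPosContraction_cfc_posCut {A : Type u} [CStarAlgebra A] {a : A} (ha : IsPosContraction a)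
    {η : ℝ} (hη : 0 ≤ η) : IsPosContraction (cfc (posCut η) a) := by
  obtain ⟨⟨w, hw⟩, hn⟩ := ha
  let _ : PartialOrder A := CStarAlgebra.spectralOrder A
  let _ : StarOrderedRing A := CStarAlgebra.spectralOrderedRing A
  have hsa : IsSelfAdjoint a := hw ▸ IsSelfAdjoint.star_mul_self w
  have h0 : 0 ≤ cfc (posCut η) a := cfc_nonneg fun t _ => posCut_nonneg η t
  refine ⟨CStarAlgebra.nonneg_iff_eq_star_mul_self.1 h0, norm_cfc_le zero_le_one fun t ht => ?_⟩
  have h1 : ‖t‖ ≤ ‖a‖ * ‖(1 : A)‖ := spectrum.norm_le_norm_mul_of_mem ht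
  have h2 : ‖(1 : A)‖ ≤ 1 := by
    rcases subsingleton_or_nontrivial A with h | h
    · simp [Subsingleton.elim (1 : A) 0]
    · exact norm_one.le
  rw [Real.norm_eq_abs, abs_of_nonneg (posCut_nonneg η t)]
  rw [Real.norm_eq_abs] at h1
  have h3 : ‖a‖ * ‖(1 : A)‖ ≤ 1 := by
    calc ‖a‖ * ‖(1 : A)‖ ≤ 1 * 1 := mul_le_mul hn h2 (norm_nonneg _) zero_le_one
      _ = 1 := one_mul 1
  exact max_le (by linarith [le_abs_self t]) zero_le_one

theorem posCut_posCut {A : Type u} [CStarAlgebra A] {a : A} (ha : IsSelfAdjoint a) {ε η : ℝ}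
    (hη : 0 ≤ η) : cfc (posCut η) (cfc (posCut ε) a) = cfc (posCut (ε + η)) a := by
  rw [← cfc_comp' (posCut η) (posCut ε) a (by unfold posCut; fun_prop) (by unfold posCut; fun_prop)
    ha]
  refine cfc_congr fun t _ => ?_
  simp only [posCut]
  rcases le_total t ε with h | h
  · rw [max_eq_right (show t - ε ≤ 0 by linarith), max_eq_right (show (0 : ℝ) - η ≤ 0 by linarith),
      max_eq_right (show t - (ε + η) ≤ 0 by linarith)]
  · rw [max_eq_left (show 0 ≤ t - ε by linarith), sub_sub]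

theorem compare_of (hamp : AmplifyStatement.{u}) (habs : AbsorbStatement.{u}) :
    CompareStatement.{u} := by
  intro A _ _ _ hsimp hnuc hdd b hb hb0 ε hε
  obtain ⟨p, hp, hP⟩ := habs A hsimp hdd b hb hb0
  obtain ⟨t, ht, hT⟩ := hamp A hnuc p hp (ε / 2) (half_pos hε)
  refine ⟨t, ht, fun a ha hτ => ?_⟩
  obtain ⟨N, Z, hN, hZ⟩ := hT a ha hτ
  obtain ⟨x, c, hx, hxx⟩ :=
    hP _ (isPosContraction_cfc_posCut ha (half_pos hε).le) N hN Z hZ (ε / 2) (half_pos hε)
  refine ⟨x, c, hx, ?_⟩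
  obtain ⟨⟨w, hw⟩, -⟩ := ha
  rw [hxx, posCut_posCut (hw ▸ IsSelfAdjoint.star_mul_self w) (half_pos hε).le, add_halves]

end Vale.Agent.P095.Compare
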