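import Vale.Agent.P095.Compare.Defs

/-!
# P095: comparison without quasitraces, statements of the modules

See notes/P095_comparison_helper8.md.  Each statement is proved in the file named in its docstring.
-/

noncomputable section

namespace Vale.Agent.P095.Compare

open Vale.Agent.P101 Vale.Agent.P095.Gamma Vale.Agent.P095.Full

open scoped ComplexOrder

universe u

/-- `Trace.lean` (Cuntz and Pedersen): an element small in all traces is a sum `∑ x* x` with
`∑ x x*` small. -/
def TraceStatement : Prop :=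
  ∀ (A : Type u) [CStarAlgebra A] [PartialOrder A] [StarOrderedRing A] (a : A), 0 ≤ a →
    ∀ t : ℝ, 0 ≤ t → (∀ τ : A →ₗ[ℂ] ℂ, IsTrace A τ → (τ a).re ≤ t) → ∀ d : ℝ, 0 < d →
      ∃ (n : ℕ) (x : Fin n → A), ‖∑ i, star (x i) * x i - a‖ ≤ d ∧
        ∑ i, x i * star (x i) ≤ algebraMap ℝ A (t + d)

/-- `Free.lean`: the free norm bound, as positivity of a kernel on `Fin p × F`. -/
def FreeStatement : Prop :=
  ∀ (A : Type u) [CStarAlgebra A] [PartialOrder A] [StarOrderedRing A] (p n : ℕ)
    (x : Fin n → A) (a : A) (d t : ℝ), 0 ≤ a → ‖a‖ ≤ 1 → 0 ≤ d → d ≤ 1 → 0 ≤ t → t ≤ 1 →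
      ‖∑ i, star (x i) * x i - a‖ ≤ d → ∑ i, x i * star (x i) ≤ algebraMap ℝ A t →
        ∀ (W : Finset (Fin p × Free p n)) (b : Fin p × Free p n → A),
          0 ≤ ∑ u ∈ W, ∑ u' ∈ W, star (b u) *
            coefKernel (freeSupport p n) (freeCoef x a (d + 4 * Real.sqrt ((p + 1) * t)))
              (MonoidHom.id _) u u' * b u'

/-- `Model.lean`: a positive finitely supported kernel over a free group is, in a finite quotient,
positive up to `γ` and few rank one kernels. -/
def ModelStatement : Prop :=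
  ∀ (ι α : Type) [Fintype ι] [DecidableEq ι] [DecidableEq α] (S : Finset (FreeGroup α))
    (C : FreeGroup α → ι → ι → ℂ),
    (∀ (W : Finset (ι × FreeGroup α)) (v : ι × FreeGroup α → ℂ),
      0 ≤ ∑ u ∈ W, ∑ u' ∈ W, star (v u) * coefKernel S C (MonoidHom.id _) u u' * v u') →
    ∀ γ η : ℝ, 0 < γ → 0 < η →
      ∃ (G : Type) (_ : Group G) (_ : Fintype G) (_ : DecidableEq G) (π : FreeGroup α →* G)
        (r : ℕ) (v : Fin r → ι × G → ℂ), (r : ℝ) ≤ η * (Fintype.card G : ℝ) ∧
          ∀ f : ι × G → ℂ, 0 ≤ ∑ u, ∑ u', star (f u) *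
            (coefKernel S C π u u' + (if u = u' then (γ : ℂ) else 0) +
              ∑ l, v l u * star (v l u')) * f u'

/-- `Amplify.lean`: in a nuclear algebra, `p * N` copies of an element small in all traces lie
below `2 * N` copies of the unit. -/
def AmplifyStatement : Prop :=
  ∀ (A : Type u) [CStarAlgebra A], IsNuclear A → ∀ p : ℕ, 2 ≤ p → ∀ ε : ℝ, 0 < ε →
    ∃ t : ℝ, 0 < t ∧ ∀ a : A, IsPosContraction a →
      (∀ τ : A →ₗ[ℂ] ℂ, IsTrace A τ → (τ a).re ≤ t) →
        ∃ (N : ℕ) (Z : Fin (2 * N) → Fin (p * N) → A), 0 < N ∧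
          ∀ c c', ∑ q, star (Z q c) * Z q c' = if c = c' then cfc (posCut ε) a else 0

/-- `Absorb.lean`: colours and orthogonal full elements in the central sequence algebra absorb a
bounded ratio of copies. -/
def AbsorbStatement : Prop :=
  ∀ (A : Type u) [CStarAlgebra A] [Nontrivial A] [TopologicalSpace.SeparableSpace A],
    IsSimpleUnital A → HasCentralDimensionDrop A → ∀ b : A, IsPos b → b ≠ 0 →
      ∃ p : ℕ, 2 ≤ p ∧ ∀ h : A, IsPosContraction h → ∀ (N : ℕ), 0 < N →
        ∀ Z : Fin (2 * N) → Fin (p * N) → A,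
          (∀ c c', ∑ q, star (Z q c) * Z q c' = if c = c' then h else 0) →
            ∀ ε : ℝ, 0 < ε → ∃ x c : A, x = b * c ∧ star x * x = cfc (posCut ε) h

/-- `Main.lean`: comparison of elements small in all traces with a fixed non-zero element, for
simple nuclear algebras with a central dimension drop.  No quasitraces, no hypothesis on traces. -/
def CompareStatement : Prop :=
  ∀ (A : Type u) [CStarAlgebra A] [Nontrivial A] [TopologicalSpace.SeparableSpace A],
    IsSimpleUnital A → IsNuclear A → HasCentralDimensionDrop A →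
      ∀ b : A, IsPos b → b ≠ 0 → ∀ ε : ℝ, 0 < ε → ∃ θ : ℝ, 0 < θ ∧ ∀ a : A, IsPosContraction a →
        (∀ τ : A →ₗ[ℂ] ℂ, IsTrace A τ → (τ a).re ≤ θ) →
          ∃ x c : A, x = b * c ∧ star x * x = cfc (posCut ε) a

end Vale.Agent.P095.Compare
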